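import Vale.Agent.P312.LS

/-! Visits of the head to blocks of the tape, as functions on natural numbers. -/

namespace Vale.Agent.P312

open Function
open Vale.Agent.Common.TreeTM hiding Ev ev_const st compile drop dup swap mv mvA mvB mvAB flush
  isS mvBody

/-- A transition table. -/
structure Mc where
  nQ : ℕ
  nG : ℕ
  K : ℕ
  q₀ : ℕ
  tab : List (ℕ × ℕ × ℕ)
  ans : List ℕ
  tab_le : ∀ i, (tab.getD i (0, 0, 0)).1 ≤ K ∧ (tab.getD i (0, 0, 0)).2.1 ≤ K ∧
    (tab.getD i (0, 0, 0)).2.2 ≤ K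

namespace Mc

variable (M : Mc)

def ent (b : ℕ) (s : List ℕ × ℕ × ℕ) : ℕ × ℕ × ℕ :=
  M.tab.getD (s.2.1 * M.nG + s.1.getD (s.2.2 % b) 0) (0, 0, 0)

def cstep (b J : ℕ) (s : List ℕ × ℕ × ℕ) : List ℕ × ℕ × ℕ :=
  bif neq (s.2.2 / b) J then
    (s.1.set (s.2.2 % b) (M.ent b s).2.1, (M.ent b s).1, s.2.2 + (M.ent b s).2.2 - 1)
  else s

def vis (b J : ℕ) (C : List ℕ) (r : ℕ) : List ℕ × ℕ × ℕ :=
  rep (fun _ s => M.cstep b J s) (C.map (min · M.K), r % M.nQ, r / M.nQ) b

def visit (b J : ℕ) (C : List ℕ) (r : ℕ) : List ℕ × ℕ :=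
  ((M.vis b J C r).1, (M.vis b J C r).2.2 * M.nQ + (M.vis b J C r).2.1)

def blk (b r : ℕ) : ℕ := r / M.nQ / b

def rstep (b J : ℕ) (s : List ℕ × Bool × ℕ) (r : ℕ) : List ℕ × Bool × ℕ :=
  bif neq (M.blk b s.2.2) J then
    ((M.visit b J s.1 s.2.2).1, s.2.1 && neq (M.visit b J s.1 s.2.2).2 r, r)
  else (s.1, s.2.1, r)

def runBlock (b J : ℕ) (C rs : List ℕ) : List ℕ × Bool × ℕ :=
  rs.tail.foldl (M.rstep b J) (C, true, rs.headD 0)

theorem vis_inv (b J : ℕ) (C : List ℕ) (q y k : ℕ) (hC : ∀ x ∈ C, x ≤ M.K) :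
    let s := rep (fun _ s => M.cstep b J s) (C, q, y) k
    s.1.length = C.length ∧ (∀ x ∈ s.1, x ≤ M.K) ∧ s.2.1 ≤ q + M.K ∧ s.2.2 ≤ y + k * M.K := by
  induction k with
  | zero => simpa [rep] using hC
  | succ k ih =>
    simp only [rep] at ih ⊢
    generalize rep (fun _ s => M.cstep b J s) (C, q, y) k = s at ih ⊢
    obtain ⟨h1, h2, h3, h4⟩ := ih
    have h5 := M.tab_le (s.2.1 * M.nG + s.1.getD (s.2.2 % b) 0)
    unfold cstep ent
    rw [Nat.succ_mul]
    cases neq (s.2.2 / b) J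
    · exact ⟨h1, h2, h3, by simp only [Bool.cond_false]; omega⟩
    · simp only [Bool.cond_true, List.length_set]
      refine ⟨h1, fun x hx => ?_, by omega, by omega⟩
      rcases List.mem_or_eq_of_mem_set hx with hx | hx
      · exact h2 x hx
      · omega

theorem visit_inv (b J : ℕ) (C : List ℕ) (r : ℕ) :
    (M.visit b J C r).1.length = C.length ∧ ∀ x ∈ (M.visit b J C r).1, x ≤ M.K := by
  have := M.vis_inv b J (C.map (min · M.K)) (r % M.nQ) (r / M.nQ) b (by
    simp only [List.mem_map]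
    rintro x ⟨y, -, rfl⟩
    exact min_le_right _ _)
  exact ⟨this.1.trans (List.length_map _), this.2.1⟩

end Mc

variable {α β : Type} [Enc α] [Enc β]

@[fun_prop] theorem LS.set {l : α → List β} {i : α → ℕ} {v : α → β} (hl : LS l) (hi : LS i)
    (hv : LS v) : LS fun a => (l a).set (i a) (v a) := by
  have : LS fun a => bif Common.TreeTM.nlt (i a) (l a).length then
      (l a).take (i a) ++ v a :: (l a).drop (i a + 1) else l a := by fun_prop
  refine this.of_eq fun a => ?_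
  unfold Common.TreeTM.nlt
  by_cases h : i a < (l a).length
  · simp [h, List.set_eq_take_append_cons_drop]
  · simp only [h, decide_false, Bool.cond_false]
    exact List.set_eq_of_length_le (by omega)

theorem sz_small {l : List ℕ} {K : ℕ} (h : ∀ x ∈ l, x ≤ K) :
    sz l ≤ (4 * sz K + 2) * l.length + 1 := by
  rw [mul_comm]
  exact sz_list_le fun a ha => sz_nat_mono (h a ha)

theorem ls_vis (M : Mc) : LS fun p : ℕ × ℕ × List ℕ × ℕ => M.vis p.1 p.2.1 p.2.2.1 p.2.2.2 := by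
  have h0 : LS fun p : ℕ × ℕ × List ℕ × ℕ => p.2.2.1.map (min · M.K) :=
    LS.map (f := fun _ x => min x M.K) (by fun_prop) (by fun_prop) 4 fun _ x => by
      have := sz_nat_mono (min_le_left x M.K)
      omega
  have h1 : LS fun p : ℕ × ℕ × List ℕ × ℕ => p.2.2.2 + M.K := by fun_prop
  have h2 : LS fun p : ℕ × ℕ × List ℕ × ℕ => p.2.2.2 + p.1 * M.K := by fun_prop
  have h3 : LS fun p : ℕ × ℕ × List ℕ × ℕ => p.2.2.1 := by fun_prop
  unfold Mc.vis
  refine LS.rep (f := fun (p : ℕ × ℕ × List ℕ × ℕ) _ s => M.cstep p.1 p.2.1 s)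
    (by unfold Mc.cstep Mc.ent; fun_prop) (by fun_prop) (by fun_prop)
    ((((h3.bd.cmul (4 * sz M.K + 2)).add (h1.bd.cmul 4)).add (h2.bd.cmul 4)).add (Lin.const 5))
    ?_
  rintro ⟨b, J, C, r⟩ k hk
  obtain ⟨a1, a2, a3, a4⟩ := M.vis_inv b J (C.map (min · M.K)) (r % M.nQ) (r / M.nQ) k (by
    simp only [List.mem_map]
    rintro x ⟨y, -, rfl⟩
    exact min_le_right _ _)
  dsimp only at *
  generalize rep (fun _ s => M.cstep b J s) (C.map (min · M.K), r % M.nQ, r / M.nQ) k = s at *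
  rw [sz_prod, sz_prod s.2]
  have b1 := sz_small a2
  rw [a1, List.length_map] at b1
  have b2 := Nat.mul_le_mul_left (4 * sz M.K + 2) (length_le_sz C)
  have b3 := sz_nat_mono (show s.2.1 ≤ r + M.K from a3.trans
    (Nat.add_le_add_right (Nat.mod_le _ _) _))
  have b4 := sz_nat_mono (show s.2.2 ≤ r + b * M.K from a4.trans
    (Nat.add_le_add (Nat.div_le_self _ _) (Nat.mul_le_mul_right _ hk)))
  omega

@[fun_prop] theorem LS.vis (M : Mc) {b J r : α → ℕ} {C : α → List ℕ} (hb : LS b) (hJ : LS J)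
    (hC : LS C) (hr : LS r) : LS fun a => M.vis (b a) (J a) (C a) (r a) :=
  LS.comp (ls_vis M) (g := fun a => (b a, J a, C a, r a)) (by fun_prop)

@[fun_prop] theorem LS.visit (M : Mc) {b J r : α → ℕ} {C : α → List ℕ} (hb : LS b) (hJ : LS J)
    (hC : LS C) (hr : LS r) : LS fun a => M.visit (b a) (J a) (C a) (r a) := by
  unfold Mc.visit
  fun_prop

@[fun_prop] theorem LS.runBlock (M : Mc) {b J : α → ℕ} {C rs : α → List ℕ} (hb : LS b)
    (hJ : LS J) (hC : LS C) (hr : LS rs) : LS fun a => M.runBlock (b a) (J a) (C a) (rs a) := by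
  unfold Mc.runBlock
  have hh : LS fun a => (rs a).headD 0 := by fun_prop
  refine LS.foldl_inv (f := fun a => M.rstep (b a) (J a))
    (by unfold Mc.rstep Mc.blk; fun_prop) (by fun_prop) (by fun_prop)
    ((((hC.bd.cmul (4 * sz M.K + 3)).add hh.bd).add hr.bd).add (Lin.const 6))
    (fun a _ s => s.1.length = (C a).length ∧ (s.1 = C a ∨ ∀ x ∈ s.1, x ≤ M.K) ∧
      (s.2.2 = (rs a).headD 0 ∨ s.2.2 ∈ rs a)) (fun a => ⟨rfl, Or.inl rfl, Or.inl rfl⟩) ?_ ?_
  · rintro a k s x hx ⟨h1, h2, -⟩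
    have hx' := List.mem_of_mem_tail hx
    unfold Mc.rstep
    cases P312.neq (M.blk (b a) s.2.2) (J a)
    · exact ⟨h1, h2, Or.inr hx'⟩
    · have := M.visit_inv (b a) (J a) s.1 s.2.2
      exact ⟨this.1.trans h1, Or.inr this.2, Or.inr hx'⟩
  · rintro a k s - ⟨h1, h2, h3⟩
    rw [sz_prod, sz_prod s.2]
    have b1 : sz s.1 ≤ (4 * sz M.K + 3) * sz (C a) + 1 := by
      rcases h2 with h2 | h2
      · rw [h2]; nlinarith
      · have := sz_small h2
        have := Nat.mul_le_mul (show 4 * sz M.K + 2 ≤ 4 * sz M.K + 3 by omega) (length_le_sz (C a))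
        rw [← h1] at this
        omega
    have b2 : sz s.2.2 ≤ sz ((rs a).headD 0) + sz (rs a) := by
      rcases h3 with h3 | h3
      · rw [h3]; omega
      · have := sz_mem h3; omega
    have := sz_bool s.2.1
    omega

/-! ### The true sequence of visits -/

namespace Mc

variable (M : Mc) (b r₀ : ℕ) (c₀ : ℕ → List ℕ)

def proc : ℕ → ℕ × (ℕ → List ℕ)
  | 0 => (r₀, c₀)
  | i + 1 => ((M.visit b (M.blk b (proc i).1) ((proc i).2 (M.blk b (proc i).1)) (proc i).1).2,
      update (proc i).2 (M.blk b (proc i).1)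
        (M.visit b (M.blk b (proc i).1) ((proc i).2 (M.blk b (proc i).1)) (proc i).1).1)

def rc (i : ℕ) : ℕ := (M.proc b r₀ c₀ i).1
def ct (i J : ℕ) : List ℕ := (M.proc b r₀ c₀ i).2 J
def recs (a k : ℕ) : List ℕ := (List.range' a k).map (M.rc b r₀ c₀)

theorem rstep_true (i J : ℕ) (ok : Bool) (r : ℕ) :
    M.rstep b J (M.ct b r₀ c₀ i J, ok, M.rc b r₀ c₀ i) r = (M.ct b r₀ c₀ (i + 1) J,
      ok && (!decide (M.blk b (M.rc b r₀ c₀ i) = J) || decide (M.rc b r₀ c₀ (i + 1) = r)), r) := by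
  unfold rstep
  simp only [neq_eq]
  by_cases h : M.blk b (M.rc b r₀ c₀ i) = J
  · subst h
    simp only [decide_true, Bool.cond_true, Bool.not_true, Bool.false_or]
    congr 1
    simp [ct, rc, proc]
  · simp only [h, decide_false, Bool.cond_false, Bool.not_false, Bool.true_or, Bool.and_true]
    congr 1
    simp only [ct, proc]
    exact (update_of_ne (fun h' => h h'.symm) _ _).symm

theorem recs_succ (a k : ℕ) :
    M.recs b r₀ c₀ a (k + 1) = M.recs b r₀ c₀ a k ++ [M.rc b r₀ c₀ (a + k)] := by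
  simp [recs, List.range'_concat]

theorem recs_add (a k l : ℕ) :
    M.recs b r₀ c₀ a (k + l) = M.recs b r₀ c₀ a k ++ M.recs b r₀ c₀ (a + k) l := by
  simp only [recs, ← List.map_append]
  congr 1
  exact (List.range'_append_1 ..).symm

theorem length_recs (a k : ℕ) : (M.recs b r₀ c₀ a k).length = k := by simp [recs]

theorem run_app (a k J : ℕ) (γ : List ℕ) :
    M.runBlock b J (M.ct b r₀ c₀ a J) (M.recs b r₀ c₀ a (k + 1) ++ γ) =
      γ.foldl (M.rstep b J) (M.ct b r₀ c₀ (a + k) J, true, M.rc b r₀ c₀ (a + k)) := by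
  induction k generalizing γ with
  | zero => simp [runBlock, recs]
  | succ k ih =>
    rw [recs_succ, List.append_assoc, ih, List.singleton_append, List.foldl_cons, rstep_true]
    simp [add_assoc]

theorem run_true (a k J : ℕ) :
    M.runBlock b J (M.ct b r₀ c₀ a J) (M.recs b r₀ c₀ a (k + 1)) =
      (M.ct b r₀ c₀ (a + k) J, true, M.rc b r₀ c₀ (a + k)) := by
  simpa using M.run_app b r₀ c₀ a k J []

theorem fold_ok (J : ℕ) (γ : List ℕ) (s : List ℕ × Bool × ℕ)
    (h : (γ.foldl (M.rstep b J) s).2.1 = true) : s.2.1 = true := by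
  induction γ generalizing s with
  | nil => exact h
  | cons x γ ih =>
    have := ih _ h
    unfold rstep at this
    cases h1 : neq (M.blk b s.2.2) J <;> simp_all

theorem run_unique (NB a : ℕ) (γ : List ℕ) : ∀ k, (∀ i < a + k + γ.length, M.blk b (M.rc b r₀ c₀ i) < NB) →
    (∀ J < NB, (M.runBlock b J (M.ct b r₀ c₀ a J) (M.recs b r₀ c₀ a (k + 1) ++ γ)).2.1 = true) →
    γ = M.recs b r₀ c₀ (a + k + 1) γ.length := by
  induction γ with
  | nil => intro k _ _; rfl
  | cons x γ ih =>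
    intro k h1 h2
    have h3 := h2 _ (h1 (a + k) (by simp))
    rw [run_app, List.foldl_cons, rstep_true] at h3
    have h4 := M.fold_ok b _ _ _ h3
    simp only [decide_true, Bool.not_true, Bool.false_or, Bool.true_and, decide_eq_true_eq] at h4
    subst h4
    have h5 := ih (k + 1) (fun i hi => h1 i (by simp; omega)) fun J hJ => by
      have := h2 J hJ
      rwa [recs_succ, List.append_assoc]
    rw [List.length_cons, add_comm γ.length 1, recs_add]
    simp only [← add_assoc] at h5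
    rw [← h5]
    rfl

end Mc

end Vale.Agent.P312
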