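import Vale.Agent.P312.Arith
import Vale.Agent.P312.Visit

/-! The simulating machine as a machine with a stack of tasks. -/

namespace Vale.Agent.P312

open Function
open Vale.Agent.Common.TreeTM hiding Ev ev_const st compile drop dup swap mv mvA mvB mvAB flush
  isS mvBody

variable {α : Type} [Enc α]

abbrev Rho : Type := ℕ × ℕ × List ℕ × List (List ℕ)

def LL (m : ℕ) : ℕ := m * m + 1
def VV (m : ℕ) : ℕ := 2 * m * (m * m)
def NB (m : ℕ) : ℕ := 2 * VV m + 1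
def DD (m o : ℕ) : ℕ := o + VV m * LL m
def Mc.NN (M : Mc) (m : ℕ) : ℕ := NB m * LL m * M.nQ + M.nG + 1
def Mc.QQ (M : Mc) (m : ℕ) : ℕ := nextP (NB m * (2 * LL m * M.NN m) + 2) - 1
def Mc.rr (M : Mc) (m o : ℕ) : ℕ := DD m o * M.nQ + M.q₀
def qq (r : Rho) : ℕ := r.2.2.1.headD 0
def rg (r : Rho) (j : ℕ) : List ℕ := r.2.2.2.getD j []
def upd (r : Rho) (j : ℕ) (f : ℕ → ℕ) : Rho :=
  (r.1, r.2.1, r.2.2.1, r.2.2.2.set j (tabl (r.2.2.1.take (LL r.1)) f))
def addU (r : Rho) (j : ℕ) (f : ℕ → ℕ) : Rho := upd r j fun i => (rg r j).getD i 0 + f i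

@[fun_prop] theorem LS.LL {m : α → ℕ} (h : LS m) : LS fun a => LL (m a) := by
  unfold P312.LL; fun_prop
@[fun_prop] theorem LS.VV {m : α → ℕ} (h : LS m) : LS fun a => VV (m a) := by
  unfold P312.VV; fun_prop
@[fun_prop] theorem LS.NB {m : α → ℕ} (h : LS m) : LS fun a => NB (m a) := by
  unfold P312.NB; fun_prop
@[fun_prop] theorem LS.DD {m o : α → ℕ} (h : LS m) (h' : LS o) : LS fun a => DD (m a) (o a) := by
  unfold P312.DD; fun_prop
@[fun_prop] theorem LS.NN (M : Mc) {m : α → ℕ} (h : LS m) : LS fun a => M.NN (m a) := by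
  unfold Mc.NN; fun_prop
@[fun_prop] theorem LS.QQ (M : Mc) {m : α → ℕ} (h : LS m) : LS fun a => M.QQ (m a) := by
  unfold Mc.QQ; fun_prop
@[fun_prop] theorem LS.rr (M : Mc) {m o : α → ℕ} (h : LS m) (h' : LS o) :
    LS fun a => M.rr (m a) (o a) := by
  unfold Mc.rr; fun_prop
@[fun_prop] theorem LS.qq {r : α → Rho} (h : LS r) : LS fun a => qq (r a) := by
  unfold P312.qq; fun_prop
@[fun_prop] theorem LS.rg {r : α → Rho} {j : α → ℕ} (h : LS r) (h' : LS j) :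
    LS fun a => rg (r a) (j a) := by
  unfold P312.rg; fun_prop
@[fun_prop] theorem LS.upd {r : α → Rho} {j : α → ℕ} {f : α → ℕ → ℕ} (h : LS r) (h' : LS j)
    (hf : LS fun p : α × ℕ => f p.1 p.2) : LS fun a => upd (r a) (j a) (f a) := by
  unfold P312.upd; fun_prop
@[fun_prop] theorem LS.addU {r : α → Rho} {j : α → ℕ} {f : α → ℕ → ℕ} (h : LS r) (h' : LS j)
    (hf : LS fun p : α × ℕ => f p.1 p.2) : LS fun a => addU (r a) (j a) (f a) := by
  unfold P312.addU; fun_prop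

def pre (m φ : ℕ) (v : List ℕ) : List ℕ :=
  bif isPos (φ % m) then v.take (φ % m * m + 1) else (v.drop (m * m)).take 1

def extN (m φ : ℕ) (y γ : List ℕ) (i : ℕ) : ℕ :=
  bif nlt i (φ % m * m + 1) then y.getD (bif isPos (φ % m) then i else m * m) 0
  else γ.getD (i - (φ % m * m + 1)) 0

namespace Mc

variable (M : Mc)

def chk (m φ J : ℕ) (γ v : List ℕ) : ℕ :=
  bif (M.runBlock (LL m) J (v.drop (LL m)) (pre m φ v ++ γ)).2.1 then 1 else 0

def nxt (m J i : ℕ) (v : List ℕ) : ℕ :=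
  (M.runBlock (LL m) J (v.drop (LL m)) (v.take (LL m))).1.getD i 0

def ansR (r : Rho) : ℕ := M.ans.getD ((rg r 0).getD (r.1 * r.1) 0 % M.nQ) 0

abbrev Out : Type := List (List ℕ) × Rho

def h0 (j l : ℕ) (r : Rho) : Out := ([], upd r j fun i => l * (rg r j).getD i 0)

def h1 (φ s : ℕ) (r : Rho) : Out :=
  bif isPos φ then ([[2, φ - 1, s, 0]], r)
  else ([], addU r 0 fun i => s * bif neq i (r.1 * r.1) then M.rr r.1 r.2.1 else 0)

def h2 (φ s k : ℕ) (r : Rho) : Out :=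
  (bif nlt k (qq r) then [[0, φ % 2, k + 1], [1, φ, 1], [3, φ, s, 0], [1, φ, qq r],
    [0, φ % 2, invN (qq r) (k + 1)], [2, φ, s, k + 1]] else [], r)

def h3 (φ s u : ℕ) (r : Rho) : Out :=
  (bif nlt u (powP (M.NN r.1) (r.2.2.1.take r.1)) then
    [[4, φ, s, u, 0, 1, 0, 0], [3, φ, s, u + 1]] else [], r)

def h4 (φ s u J a k e : ℕ) (r : Rho) : Out :=
  bif nlt J (NB r.1) then
    (bif nlt k (qq r) then [[0, 2 + φ / r.1 % 2, k + 1], [6, φ / r.1, J, 1],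
      [5, φ, s, u, J, a, k, e]] else [[4, φ, s, u, J + 1, a * e % (qq r + 1), 0, 0]], r)
  else ([], addU r ((φ + 1) % 2) fun i => qq r * s * a *
    extN r.1 φ (rg r (φ % 2)) (digN (M.NN r.1) (r.2.2.1.take r.1) u) i)

def h5 (φ s u J a k e : ℕ) (r : Rho) : Out :=
  ([[6, φ / r.1, J, qq r], [0, 2 + φ / r.1 % 2, invN (qq r) (k + 1)],
    [4, φ, s, u, J, a, k + 1, (e + qq r * ldeN (qq r) (M.NN r.1) r.2.2.1
      (M.chk r.1 φ J (digN (M.NN r.1) (r.2.2.1.take r.1) u))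
      (rg r (φ % 2) ++ rg r (2 + φ / r.1 % 2))) % (qq r + 1)]], r)

def h6 (I J s : ℕ) (r : Rho) : Out :=
  (bif isPos I then [[7, I - 1, J, s, 0]] else [[9, J, s, 0]], r)

def h7 (I J s k : ℕ) (r : Rho) : Out :=
  (bif nlt k (qq r) then [[0, (I + 1) * r.1 % 2, k + 1], [1, (I + 1) * r.1, 1],
    [0, 2 + I % 2, k + 1], [6, I, J, 1], [8, I, J, s], [6, I, J, qq r],
    [0, 2 + I % 2, invN (qq r) (k + 1)], [1, (I + 1) * r.1, qq r],
    [0, (I + 1) * r.1 % 2, invN (qq r) (k + 1)], [7, I, J, s, k + 1]] else [], r)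

def h8 (I J s : ℕ) (r : Rho) : Out :=
  ([], addU r (2 + (I + 1) % 2) fun i => qq r * s * ldeN (qq r) (M.NN r.1) r.2.2.1
    (M.nxt r.1 J i) (rg r ((I + 1) * r.1 % 2) ++ rg r (2 + I % 2)))

def h9 (J s j : ℕ) (r : Rho) : Out :=
  (bif nlt j (LL r.1) then [[10, 1, J * LL r.1 + j + 1 - DD r.1 r.2.1], [11, s, j],
    [10, 0, J * LL r.1 + j + 1 - DD r.1 r.2.1], [9, J, s, j + 1]] else [], r)

def h10 (d k : ℕ) (r : Rho) : Out := (bif isPos k then [[10, d, k - 1]] else [], r)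

def h11 (x s j : ℕ) (r : Rho) : Out := ([], addU r 2 fun i => bif neq i j then s * x else 0)

def h12 (m o : ℕ) : Out :=
  ([[13, M.QQ m, 2 * LL m], [1, 2 * m * m, 1], [14]], (m, o, [], []))

def h13 (q k : ℕ) (r : Rho) : Out :=
  bif isPos k then ([[13, q, k - 1]], (r.1, r.2.1, q :: r.2.2.1, []))
  else ([], upd (upd (upd (upd (r.1, r.2.1, r.2.2.1, [[], [], [], []]) 0 fun _ => 0) 1 fun _ => 0)
    2 fun _ => 0) 3 fun _ => 0)

def h14 (r : Rho) : Out :=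
  (bif isPos (M.ansR r) then [] else bif nlt (r.2.1 + 1) (LL r.1) then [[12, r.1, r.2.1 + 1]]
    else [[12, r.1 + 1, 0]], r)

def hd (x : ℕ) (g : ℕ → ℕ) (r : Rho) : Out :=
  bif neq (g 0) 0 then h0 (g 1) (g 2) r else
  bif neq (g 0) 1 then M.h1 (g 1) (g 2) r else
  bif neq (g 0) 2 then h2 (g 1) (g 2) (g 3) r else
  bif neq (g 0) 3 then M.h3 (g 1) (g 2) (g 3) r else
  bif neq (g 0) 4 then M.h4 (g 1) (g 2) (g 3) (g 4) (g 5) (g 6) (g 7) r else
  bif neq (g 0) 5 then M.h5 (g 1) (g 2) (g 3) (g 4) (g 5) (g 6) (g 7) r else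
  bif neq (g 0) 6 then h6 (g 1) (g 2) (g 3) r else
  bif neq (g 0) 7 then h7 (g 1) (g 2) (g 3) (g 4) r else
  bif neq (g 0) 8 then M.h8 (g 1) (g 2) (g 3) r else
  bif neq (g 0) 9 then h9 (g 1) (g 2) (g 3) r else
  bif neq (g 0) 10 then h10 (g 1) (g 2) r else
  bif neq (g 0) 11 then h11 x (g 1) (g 2) r else
  bif neq (g 0) 12 then M.h12 (g 1) (g 2) else
  bif neq (g 0) 13 then h13 (g 1) (g 2) r else M.h14 r

def H (p : ℕ × List ℕ × Rho) : (Bool × Bool) × Out :=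
  (bif neq (p.2.1.getD 0 0) 10 && isPos (p.2.1.getD 2 0) then (isPos (p.2.1.getD 1 0), true)
    else (false, false), M.hd p.1 (fun i => p.2.1.getD i 0) p.2.2)

end Mc

@[fun_prop] theorem LS.extN {m φ i : α → ℕ} {y γ : α → List ℕ} (h1 : LS m) (h2 : LS φ) (h3 : LS y)
    (h4 : LS γ) (h5 : LS i) : LS fun a => extN (m a) (φ a) (y a) (γ a) (i a) := by
  unfold P312.extN; fun_prop

@[fun_prop] theorem LS.chk (M : Mc) {m φ J : α → ℕ} {y γ : α → List ℕ} (h1 : LS m) (h2 : LS φ)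
    (h3 : LS y) (h4 : LS γ) (h5 : LS J) : LS fun a => M.chk (m a) (φ a) (J a) (γ a) (y a) := by
  unfold Mc.chk pre; fun_prop

@[fun_prop] theorem LS.nxt (M : Mc) {m i J : α → ℕ} {y : α → List ℕ} (h1 : LS m) (h2 : LS i)
    (h3 : LS y) (h5 : LS J) : LS fun a => M.nxt (m a) (J a) (i a) (y a) := by
  unfold Mc.nxt; fun_prop

@[fun_prop] theorem LS.ansR (M : Mc) {r : α → Rho} (h : LS r) : LS fun a => M.ansR (r a) := by
  unfold Mc.ansR; fun_prop

theorem ls_H (M : Mc) : LS M.H := by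
  unfold Mc.H Mc.hd
  refine LS.pair (by fun_prop) ?_
  refine LS.cond (by fun_prop) (by unfold Mc.h0; fun_prop) ?_
  refine LS.cond (by fun_prop) (by unfold Mc.h1; fun_prop) ?_
  refine LS.cond (by fun_prop) (by unfold Mc.h2; fun_prop) ?_
  refine LS.cond (by fun_prop) (by unfold Mc.h3; fun_prop) ?_
  refine LS.cond (by fun_prop) (by unfold Mc.h4; fun_prop) ?_
  refine LS.cond (by fun_prop) (by unfold Mc.h5; fun_prop) ?_
  refine LS.cond (by fun_prop) (by unfold Mc.h6; fun_prop) ?_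
  refine LS.cond (by fun_prop) (by unfold Mc.h7; fun_prop) ?_
  refine LS.cond (by fun_prop) (by unfold Mc.h8; fun_prop) ?_
  refine LS.cond (by fun_prop) (by unfold Mc.h9; fun_prop) ?_
  refine LS.cond (by fun_prop) (by unfold Mc.h10; fun_prop) ?_
  refine LS.cond (by fun_prop) (by unfold Mc.h11; fun_prop) ?_
  refine LS.cond (by fun_prop) (by unfold Mc.h12; fun_prop) ?_
  exact LS.cond (by fun_prop) (by unfold Mc.h13; fun_prop) (by unfold Mc.h14; fun_prop)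

end Vale.Agent.P312
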