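import Mathlib.FieldTheory.Finite.Basic
import Mathlib.Algebra.Polynomial.Eval.Degree
import Mathlib.Algebra.Polynomial.BigOperators
import Mathlib.Data.List.GetD

/-! Low degree extensions over prime fields and the summation identity of Cook and Mertz. -/

namespace Vale.Agent.P312

open Finset Polynomial

variable {q : ℕ} [Fact (q + 1).Prime]

def PD (d : ℕ) (f : ZMod (q + 1) → ZMod (q + 1)) : Prop :=
  ∃ P : (ZMod (q + 1))[X], P.natDegree ≤ d ∧ ∀ x, f x = P.eval x

theorem PD.mono {d e : ℕ} {f : ZMod (q + 1) → ZMod (q + 1)} (h : PD d f) (he : d ≤ e) :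
    PD e f := by
  obtain ⟨P, h1, h2⟩ := h
  exact ⟨P, h1.trans he, h2⟩

theorem PD.const (d : ℕ) (a : ZMod (q + 1)) : PD d fun _ => a := ⟨C a, by simp, by simp⟩

theorem PD.add {d : ℕ} {f g : ZMod (q + 1) → ZMod (q + 1)} (h : PD d f) (h' : PD d g) :
    PD d fun x => f x + g x := by
  obtain ⟨P, h1, h2⟩ := h
  obtain ⟨Q, h3, h4⟩ := h'
  exact ⟨P + Q, natDegree_add_le_of_degree_le h1 h3, by simp [h2, h4]⟩

theorem PD.mul {d e : ℕ} {f g : ZMod (q + 1) → ZMod (q + 1)} (h : PD d f) (h' : PD e g) :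
    PD (d + e) fun x => f x * g x := by
  obtain ⟨P, h1, h2⟩ := h
  obtain ⟨Q, h3, h4⟩ := h'
  exact ⟨P * Q, natDegree_mul_le.trans (Nat.add_le_add h1 h3), by simp [h2, h4]⟩

theorem PD.lin (a b : ZMod (q + 1)) : PD 1 fun x => x * a + b :=
  PD.add (PD.mul (e := 0) ⟨X, natDegree_X_le, by simp⟩ (PD.const 0 a)) (PD.const 1 b)

theorem PD.sum {ι : Type} {d : ℕ} (s : Finset ι) {f : ι → ZMod (q + 1) → ZMod (q + 1)}
    (h : ∀ i, PD d (f i)) : PD d fun x => ∑ i ∈ s, f i x := by
  classical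
  induction s using Finset.induction_on with
  | empty => simpa using PD.const d 0
  | insert i s hi ih => simpa [sum_insert hi] using (h i).add ih

theorem PD.prod {d : ℕ} (n : ℕ) {f : ℕ → ZMod (q + 1) → ZMod (q + 1)}
    (h : ∀ i, PD d (f i)) : PD (n * d) fun x => ∏ i ∈ range n, f i x := by
  induction n with
  | zero => simpa using PD.const 0 1
  | succ n ih => simpa [prod_range_succ, Nat.succ_mul] using ih.mul (h n)

theorem cast_ne {a b : ℕ} (ha : a ≤ q) (hb : b ≤ q) (h : a ≠ b) :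
    (a : ZMod (q + 1)) ≠ b := by
  intro h'
  have := congrArg ZMod.val h'
  rw [ZMod.val_cast_of_lt (by omega), ZMod.val_cast_of_lt (by omega)] at this
  exact h this

theorem mul_pow_eq {a : ZMod (q + 1)} (h : a ≠ 0) : a * a ^ (q - 1) = 1 := by
  have h1 := (Fact.out : (q + 1).Prime).two_le
  have := ZMod.pow_card_sub_one_eq_one h
  rw [← pow_succ', show q - 1 + 1 = q + 1 - 1 by omega, this]

theorem PD.zero {d : ℕ} {f : ZMod (q + 1) → ZMod (q + 1)} (h : PD d f) (hd : d < q) :
    ∑ k ∈ range q, f ((k + 1 : ℕ) : ZMod (q + 1)) = -f 0 := by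
  obtain ⟨P, h1, h2⟩ := h
  have h3 : ∑ x, f x = 0 := by
    simp only [h2, eval_eq_sum_range]
    rw [sum_comm]
    refine sum_eq_zero fun i hi => ?_
    rw [← mul_sum, FiniteField.sum_pow_lt_card_sub_one, mul_zero]
    rw [mem_range] at hi
    rw [ZMod.card]
    omega
  have h4 : ∑ k ∈ range (q + 1), f (k : ZMod (q + 1)) = ∑ x, f x := by
    refine sum_nbij (fun k : ℕ => (k : ZMod (q + 1))) (by simp) (fun a ha b hb hab => ?_)
      (fun x _ => ⟨x.val, by simpa using x.val_lt, by simp⟩) fun _ _ => rfl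
    by_contra hne
    simp only [coe_range, Set.mem_Iio] at ha hb
    exact cast_ne (by omega) (by omega) hne hab
  rw [sum_range_succ', h3] at h4
  simpa using eq_neg_of_add_eq_zero_left h4

def dl (N h : ℕ) (x : ZMod (q + 1)) : ZMod (q + 1) :=
  ∏ k ∈ range N, if k = h then 1 else (x - k) * ((h : ZMod (q + 1)) - k) ^ (q - 1)

theorem dl_eq {N h v : ℕ} (hN : N ≤ q) (hh : h < N) (hv : v < N) :
    dl N h (v : ZMod (q + 1)) = if h = v then 1 else 0 := by
  unfold dl
  split_ifs with e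
  · subst e
    refine prod_eq_one fun k hk => ?_
    rw [mem_range] at hk
    split_ifs with e
    · rfl
    · exact mul_pow_eq (sub_ne_zero.2 (cast_ne (by omega) (by omega) (Ne.symm e)))
  · exact prod_eq_zero (mem_range.2 hv) (by simp [Ne.symm e])

theorem PD.dl (N h : ℕ) (a b : ZMod (q + 1)) : PD N fun x => dl N h (x * a + b) := by
  have := PD.prod (d := 1) N (f := fun (k : ℕ) (x : ZMod (q + 1)) => if k = h then 1 else
    (x * a + b - (k : ZMod (q + 1))) * ((h : ZMod (q + 1)) - (k : ZMod (q + 1))) ^ (q - 1)) fun k => by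
      by_cases e : k = h
      · simpa [e] using PD.const 1 1
      · simpa [e, add_sub_assoc] using (PD.lin a (b - k)).mul (PD.const 0 _)
  rwa [mul_one] at this

def dig (N k u : ℕ) : List ℕ := (List.range k).map fun i => u / N ^ i % N

theorem dig_succ (N k u : ℕ) : dig N (k + 1) u = u % N :: dig N k (u / N) := by
  simp [dig, List.range_succ_eq_map, Nat.div_div_eq_div_mul, pow_succ']

@[simp] theorem length_dig (N k u : ℕ) : (dig N k u).length = k := by simp [dig]

theorem dig_inj {N : ℕ} : ∀ {k u v : ℕ}, u < N ^ k → v < N ^ k → dig N k u = dig N k v → u = v := by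
  intro k
  induction k with
  | zero => intro u v h1 h2 _; simp at h1 h2; omega
  | succ k ih =>
    intro u v h1 h2 h3
    simp only [dig_succ, List.cons.injEq] at h3
    rw [pow_succ'] at h1 h2
    have := ih (Nat.div_lt_of_lt_mul h1) (Nat.div_lt_of_lt_mul h2) h3.2
    rw [← Nat.div_add_mod u N, ← Nat.div_add_mod v N, this, h3.1]

theorem dig_surj {N : ℕ} (v : List ℕ) (hv : ∀ x ∈ v, x < N) :
    ∃ u < N ^ v.length, dig N v.length u = v := by
  induction v with
  | nil => exact ⟨0, by simp, rfl⟩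
  | cons x v ih =>
    obtain ⟨u, h1, h2⟩ := ih fun y hy => hv y (by simp [hy])
    have hx := hv x (by simp)
    refine ⟨x + N * u, ?_, ?_⟩
    · rw [List.length_cons, pow_succ']
      nlinarith
    · rw [List.length_cons, dig_succ, Nat.add_mul_mod_self_left, Nat.mod_eq_of_lt hx,
        Nat.add_mul_div_left _ _ (by omega), Nat.div_eq_of_lt hx, zero_add, h2]

theorem sum_dig {R : Type} [AddCommMonoid R] {N k : ℕ} (F : List ℕ → R) (v : List ℕ)
    (hk : v.length = k) (hv : ∀ x ∈ v, x < N) (h : ∀ u, dig N k u ≠ v → F (dig N k u) = 0) :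
    ∑ u ∈ range (N ^ k), F (dig N k u) = F v := by
  subst hk
  obtain ⟨u, h1, h2⟩ := dig_surj v hv
  rw [sum_eq_single u (fun u' hu hne => h u' fun e => hne
    (dig_inj (mem_range.1 hu) h1 (e.trans h2.symm))) (fun hu => absurd (mem_range.2 h1) hu), h2]

def lde (N k : ℕ) (f : List ℕ → ℕ) (x : ℕ → ZMod (q + 1)) : ZMod (q + 1) :=
  ∑ u ∈ range (N ^ k), (∏ i ∈ range k, dl N ((dig N k u).getD i 0) (x i)) * f (dig N k u)

theorem lde_congr (N k : ℕ) (f : List ℕ → ℕ) {x y : ℕ → ZMod (q + 1)} (h : ∀ i < k, x i = y i) :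
    lde N k f x = lde N k f y := by
  unfold lde
  refine sum_congr rfl fun u _ => ?_
  rw [prod_congr rfl fun i hi => by rw [h i (mem_range.1 hi)]]

theorem lde_eq {N k : ℕ} (hN : N ≤ q) (f : List ℕ → ℕ) (v : List ℕ) (hk : v.length = k)
    (hv : ∀ x ∈ v, x < N) {x : ℕ → ZMod (q + 1)} (hx : ∀ i < k, x i = v.getD i 0) :
    lde N k f x = f v := by
  have h1 : ∀ i < k, v.getD i 0 < N := fun i hi => by
    rw [List.getD_eq_getElem _ _ (by omega)]
    exact hv _ (List.getElem_mem _)
  rw [lde_congr N k f hx, lde, sum_dig (fun z => (∏ i ∈ range k, dl N (z.getD i 0)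
    (v.getD i 0 : ZMod (q + 1))) * f z) v hk hv, prod_eq_one, one_mul]
  · intro i hi
    rw [mem_range] at hi
    rw [dl_eq hN (h1 i hi) (h1 i hi), if_pos rfl]
  · intro u hu
    obtain ⟨i, hi, hne⟩ : ∃ i < k, (dig N k u).getD i 0 ≠ v.getD i 0 := by
      by_contra hcon
      push Not at hcon
      refine hu (List.ext_getElem (by simp [hk]) fun i a1 a2 => ?_)
      have := hcon i (by omega)
      rwa [List.getD_eq_getElem _ _ a1, List.getD_eq_getElem _ _ a2] at this
    rw [prod_eq_zero (mem_range.2 hi), zero_mul]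
    rw [dl_eq hN _ (h1 i hi), if_neg hne]
    have := h1 i hi
    rw [List.getD_eq_getElem _ _ (by simpa using hi)]
    simpa [dig] using Nat.mod_lt _ (by omega)

theorem PD.lde (N k : ℕ) (f : List ℕ → ℕ) (a b : ℕ → ZMod (q + 1)) :
    PD (k * N) fun x => lde N k f fun i => x * a i + b i :=
  PD.sum _ fun _ => (PD.prod k fun _ => PD.dl _ _ _ _).mul (PD.const 0 _)

end Vale.Agent.P312
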