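import Vale.Agent.P312.Go
import Vale.Agent.P312.CM
import Mathlib.NumberTheory.Bertrand

/-! Modular arithmetic in linear space. -/

namespace Vale.Agent.P312

open Function
open Vale.Agent.Common.TreeTM hiding Ev ev_const st compile drop dup swap mv mvA mvB mvAB flush
  isS mvBody

variable {α : Type} [Enc α]

def tabl (pad : List ℕ) (f : ℕ → ℕ) : List ℕ :=
  pad.foldl (fun acc q => acc ++ [f acc.length % (q + 1)]) []

@[fun_prop] theorem LS.tabl {pad : α → List ℕ} {f : α → ℕ → ℕ} (hp : LS pad)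
    (hf : LS fun p : α × ℕ => f p.1 p.2) : LS fun a => tabl (pad a) (f a) := by
  unfold P312.tabl
  have hf' : LS fun p : α × List ℕ × ℕ => f p.1 p.2.1.length :=
    LS.comp (g := fun p : α × List ℕ × ℕ => (p.1, p.2.1.length)) hf (by fun_prop)
  refine LS.foldl_grow (f := fun a acc q => acc ++ [f a acc.length % (q + 1)]) (i := fun _ => [])
    (by fun_prop) (by fun_prop) hp 4 fun a acc x => ?_
  have := sz_nat_mono (show f a acc.length % (x + 1) ≤ x from
    Nat.le_of_lt_succ (Nat.mod_lt _ (by omega)))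
  simp only [sz_eq_wt, wt_append, wt_cons, wt_nil]
  omega

theorem tabl_eq (n q : ℕ) (f : ℕ → ℕ) :
    tabl (List.replicate n q) f = (List.range n).map fun i => f i % (q + 1) := by
  induction n with
  | zero => rfl
  | succ n ih =>
    unfold tabl at ih ⊢
    rw [List.replicate_succ', List.foldl_append, ih, List.range_succ]
    simp

def mrep (q : ℕ) (f : ℕ → ℕ → ℕ) (i n : ℕ) : ℕ := rep (fun k acc => f k acc % (q + 1)) i n

@[fun_prop] theorem LS.mrep {q i n : α → ℕ} {f : α → ℕ → ℕ → ℕ} (hq : LS q)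
    (hf : LS fun p : α × ℕ × ℕ => f p.1 p.2.1 p.2.2) (hi : LS i) (hn : LS n) :
    LS fun a => mrep (q a) (f a) (i a) (n a) := by
  unfold P312.mrep
  refine LS.rep (f := fun a k acc => f a k acc % (q a + 1)) (by fun_prop) hi hn
    ((hi.bd.add (hq.bd.cmul 4)).add (Lin.const 1)) fun a k _ => ?_
  cases k with
  | zero => simp only [P312.rep]; omega
  | succ k =>
    have := sz_nat_mono (show f a k (P312.rep (fun k acc => f a k acc % (q a + 1)) (i a) k) %
      (q a + 1) ≤ q a from Nat.le_of_lt_succ (Nat.mod_lt _ (by omega)))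
    simp only [P312.rep]
    omega

theorem mrep_prod (q : ℕ) (g : ℕ → ℕ) (n : ℕ) :
    ((mrep q (fun k acc => acc * g k) 1 n : ℕ) : ZMod (q + 1)) =
      ∏ k ∈ Finset.range n, (g k : ZMod (q + 1)) := by
  induction n with
  | zero => simp [mrep, rep]
  | succ n ih =>
    unfold mrep at ih ⊢
    rw [rep, ZMod.natCast_mod, Nat.cast_mul, ih, Finset.prod_range_succ]

theorem mrep_sum (q : ℕ) (g : ℕ → ℕ) (n : ℕ) :
    ((mrep q (fun k acc => acc + g k) 0 n : ℕ) : ZMod (q + 1)) =
      ∑ k ∈ Finset.range n, (g k : ZMod (q + 1)) := by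
  induction n with
  | zero => simp [mrep, rep]
  | succ n ih =>
    unfold mrep at ih ⊢
    rw [rep, ZMod.natCast_mod, Nat.cast_add, ih, Finset.sum_range_succ]

theorem cast_q (q : ℕ) : (q : ZMod (q + 1)) = -1 := by
  have := ZMod.natCast_self (q + 1)
  rw [Nat.cast_succ] at this
  exact eq_neg_of_add_eq_zero_left this

def invN (q z : ℕ) : ℕ := mrep q (fun _ acc => acc * z) 1 (q - 1) % (q + 1)

@[fun_prop] theorem LS.invN {q z : α → ℕ} (hq : LS q) (hz : LS z) :
    LS fun a => invN (q a) (z a) := by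
  unfold P312.invN
  fun_prop

theorem invN_eq (q z : ℕ) : (invN q z : ZMod (q + 1)) = (z : ZMod (q + 1)) ^ (q - 1) := by
  rw [invN, ZMod.natCast_mod, mrep_prod q fun _ => z]
  simp

theorem invN_le (q z : ℕ) : invN q z ≤ q := Nat.le_of_lt_succ (Nat.mod_lt _ (by omega))

def dlN (q N h x : ℕ) : ℕ :=
  mrep q (fun k acc => acc * bif neq k h then 1 else (x + q * k) * invN q (h + q * k)) 1 N

@[fun_prop] theorem LS.dlN {q N h x : α → ℕ} (hq : LS q) (hN : LS N) (hh : LS h) (hx : LS x) :
    LS fun a => dlN (q a) (N a) (h a) (x a) := by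
  unfold P312.dlN
  fun_prop

theorem dlN_eq (q N h x : ℕ) [Fact (q + 1).Prime] :
    (dlN q N h x : ZMod (q + 1)) = dl N h (x : ZMod (q + 1)) := by
  rw [dlN, mrep_prod, dl]
  refine Finset.prod_congr rfl fun k _ => ?_
  by_cases e : k = h <;> simp [neq_eq, e, invN_eq, cast_q, sub_eq_add_neg]

def powP (N : ℕ) (pad : List ℕ) : ℕ := pad.foldl (fun acc x => acc * min N (x + 1)) 1

@[fun_prop] theorem LS.powP {N : α → ℕ} {pad : α → List ℕ} (hN : LS N) (hp : LS pad) :
    LS fun a => powP (N a) (pad a) := by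
  unfold P312.powP
  refine LS.foldl_take (f := fun a acc x => acc * Min.min (N a) (x + 1)) (i := fun _ => 1)
    (by fun_prop) (by fun_prop) hp ((hp.bd.cmul 4).add (Lin.const 1)) fun a k => sz_nat_le ?_
  have : ∀ (l : List ℕ) (s : ℕ), l.foldl (fun acc x => acc * Min.min (N a) (x + 1)) s ≤
      s * 2 ^ wt l := by
    intro l
    induction l with
    | nil => simp
    | cons x l ih =>
      intro s
      refine (ih _).trans ?_
      rw [wt_cons, pow_add, ← mul_assoc, pow_succ]
      have := lt_two_pow_sz x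
      exact Nat.mul_le_mul_right _ (Nat.mul_le_mul_left _ (by omega))
  refine (this _ _).trans_lt ?_
  rw [one_mul]
  have := sz_take (pad a) k
  rw [sz_eq_wt] at this
  exact Nat.pow_lt_pow_right (by norm_num) (by omega)

theorem powP_eq {N q : ℕ} (h : N ≤ q) (n : ℕ) : powP N (List.replicate n q) = N ^ n := by
  induction n with
  | zero => rfl
  | succ n ih =>
    unfold powP at ih ⊢
    rw [List.replicate_succ', List.foldl_append, ih, pow_succ]
    simp [show N ≤ q + 1 by omega]

def digN (N : ℕ) (pad : List ℕ) (u : ℕ) : List ℕ :=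
  tabl pad fun i => u / powP N (pad.take i) % N

@[fun_prop] theorem LS.digN {N u : α → ℕ} {pad : α → List ℕ} (hN : LS N) (hp : LS pad)
    (hu : LS u) : LS fun a => digN (N a) (pad a) (u a) := by
  unfold P312.digN
  fun_prop

theorem digN_eq {N q : ℕ} (h0 : 0 < N) (h : N ≤ q) (n u : ℕ) :
    digN N (List.replicate n q) u = dig N n u := by
  rw [digN, tabl_eq, dig]
  refine List.map_congr_left fun i hi => ?_
  rw [List.mem_range] at hi
  rw [List.take_replicate, powP_eq h, min_eq_left hi.le]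
  exact Nat.mod_eq_of_lt ((Nat.mod_lt _ h0).trans (by omega))

def ldeN (q N : ℕ) (pad : List ℕ) (f : List ℕ → ℕ) (x : List ℕ) : ℕ :=
  mrep q (fun u acc => acc + mrep q (fun i a => a * dlN q N ((digN N pad u).getD i 0) (x.getD i 0))
    1 pad.length * f (digN N pad u)) 0 (powP N pad)

@[fun_prop] theorem LS.ldeN {q N : α → ℕ} {pad x : α → List ℕ} {f : α → List ℕ → ℕ} (hq : LS q)
    (hN : LS N) (hp : LS pad) (hf : LS fun p : α × List ℕ => f p.1 p.2) (hx : LS x) :
    LS fun a => ldeN (q a) (N a) (pad a) (f a) (x a) := by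
  unfold P312.ldeN
  have hf' : LS fun p : α × ℕ × ℕ => f p.1 (P312.digN (N p.1) (pad p.1) p.2.1) :=
    LS.comp (g := fun p : α × ℕ × ℕ => (p.1, P312.digN (N p.1) (pad p.1) p.2.1)) hf (by fun_prop)
  fun_prop

theorem ldeN_eq {N q : ℕ} [Fact (q + 1).Prime] (h0 : 0 < N) (h : N ≤ q) (n : ℕ) (f : List ℕ → ℕ)
    (x : List ℕ) : (ldeN q N (List.replicate n q) f x : ZMod (q + 1)) =
      lde N n f fun i => (x.getD i 0 : ZMod (q + 1)) := by
  rw [ldeN, mrep_sum, powP_eq h, lde]
  refine Finset.sum_congr rfl fun u _ => ?_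
  rw [Nat.cast_mul, mrep_prod, digN_eq h0 h, List.length_replicate]
  simp only [dlN_eq]

def isPr (x : ℕ) : Bool := rep (fun k s => s && (nlt k 2 || isPos (x % k))) (nlt 1 x) x

@[fun_prop] theorem LS.isPr {x : α → ℕ} (hx : LS x) : LS fun a => isPr (x a) := by
  unfold P312.isPr
  exact LS.rep (f := fun a k s => s && (Common.TreeTM.nlt k 2 || Common.TreeTM.isPos (x a % k)))
    (by fun_prop) (by fun_prop) hx (Lin.const 3) fun _ _ _ => sz_bool _

theorem isPr_iff (x : ℕ) : isPr x = true ↔ x.Prime := by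
  have : ∀ n, rep (fun k s => s && (nlt k 2 || isPos (x % k))) (nlt 1 x) n = true ↔
      2 ≤ x ∧ ∀ k < n, 2 ≤ k → ¬k ∣ x := by
    intro n
    induction n with
    | zero => simp [rep, nlt]; omega
    | succ n ih =>
      simp only [rep, Bool.and_eq_true, ih, Nat.forall_lt_succ_right, and_assoc]
      simp only [nlt, isPos, Bool.or_eq_true, decide_eq_true_eq, Nat.dvd_iff_mod_eq_zero]
      refine and_congr_right fun _ => and_congr_right fun _ => ?_
      omega
  rw [isPr, this, Nat.prime_def_lt']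
  exact and_congr_right fun _ => forall_congr' fun _ => ⟨fun h a b => h b a, fun h a b => h b a⟩

def nextP (d : ℕ) : ℕ := rep (fun _ s => bif isPr s then s else s + 1) (d + 1) d

theorem nextP_le (d k : ℕ) : rep (fun _ s => bif isPr s then s else s + 1) (d + 1) k ≤
    d + 1 + k := by
  induction k with
  | zero => rfl
  | succ k ih =>
    rw [rep]
    cases isPr (rep (fun _ s => bif isPr s then s else s + 1) (d + 1) k) <;> simp <;> omega

@[fun_prop] theorem LS.nextP {d : α → ℕ} (hd : LS d) : LS fun a => nextP (d a) := by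
  unfold P312.nextP
  have h : LS fun a => d a + 1 + d a := by fun_prop
  exact LS.rep (f := fun _ _ s => bif P312.isPr s then s else s + 1) (by fun_prop) (by fun_prop) hd
    ((h.bd.cmul 4).add (Lin.const 1)) fun a k hk =>
      sz_nat_mono ((nextP_le _ _).trans (by omega))

theorem nextP_spec {d : ℕ} (hd : d ≠ 0) : (nextP d).Prime ∧ d < nextP d ∧ nextP d ≤ 2 * d := by
  obtain ⟨p, h1, h2, h3⟩ := Nat.exists_prime_lt_and_le_two_mul d hd
  have : ∀ k, let s := rep (fun _ s => bif isPr s then s else s + 1) (d + 1) k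
      s ≤ p ∧ d < s ∧ (s.Prime ∨ s = d + 1 + k) := by
    intro k
    induction k with
    | zero => exact ⟨h2, Nat.lt_succ_self _, Or.inr rfl⟩
    | succ k ih =>
      simp only [rep] at ih ⊢
      generalize rep (fun _ s => bif isPr s then s else s + 1) (d + 1) k = s at ih ⊢
      obtain ⟨a1, a2, a3⟩ := ih
      cases e : isPr s
      · have e' : ¬s.Prime := by rw [← isPr_iff, e]; simp
        have : s ≠ p := fun h => e' (h ▸ h1)
        simp only [Bool.cond_false]
        exact ⟨by omega, by omega, Or.inr (by have := a3.resolve_left e'; omega)⟩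
      · exact ⟨a1, a2, Or.inl ((isPr_iff s).1 e)⟩
  obtain ⟨a1, a2, a3⟩ := this d
  exact ⟨a3.resolve_right (by omega), a2, a1.trans h3⟩

end Vale.Agent.P312
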