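import Mathlib.Data.Sign.Defs
import Mathlib.Analysis.SpecialFunctions.Pow.Real

/-! One-tape Turing machines, multitape machines with a read-only input tape, and the classes
`TIME₁[t]` and `SPACE[s]`. -/

namespace Vale.Agent.P312

open Function

/-- A deterministic one-tape Turing machine with input alphabet `A`: finite state set `Q`, finite
tape alphabet `G` containing the blank and a copy of `A`.  The states with `out q = some b` are
halting states with answer `b`.  A transition gives the new state, the written symbol and the
head move in `{-1, 0, 1}`. -/
structure OneTape (A : Type) where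
  Q : Type
  G : Type
  finQ : Finite Q
  finG : Finite G
  blank : G
  inp : A → G
  inp_inj : Injective inp
  inp_ne : ∀ a, inp a ≠ blank
  start : Q
  out : Q → Option Bool
  δ : Q → G → Q × G × SignType

namespace OneTape

variable {A : Type} (M : OneTape A)

/-- State, head position and content of the two-way infinite tape. -/
structure Cfg where
  q : M.Q
  pos : ℤ
  tape : ℤ → M.G

/-- One step; halting configurations do not change. -/
def step (c : M.Cfg) : M.Cfg :=
  if (M.out c.q).isSome then c else
    ⟨(M.δ c.q (c.tape c.pos)).1, c.pos + ((M.δ c.q (c.tape c.pos)).2.2 : ℤ),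
      update c.tape c.pos (M.δ c.q (c.tape c.pos)).2.1⟩

/-- The input is written on the cells `0, …, n - 1`, all other cells are blank, the head is on
cell `0`. -/
def init (w : List A) : M.Cfg :=
  ⟨M.start, 0, fun i => if 0 ≤ i then (w[i.toNat]?.map M.inp).getD M.blank else M.blank⟩

end OneTape

/-- `L ∈ TIME₁[t]`: some one-tape machine has halted after `t n` steps on every input of length
`n`, with the answer `true` exactly on `L`. -/
def TIME₁ {A : Type} (t : ℕ → ℕ) (L : Set (List A)) : Prop :=
  ∃ M : OneTape A, ∀ w : List A, ∃ b : Bool,
    M.out (M.step^[t w.length] (M.init w)).q = some b ∧ (b = true ↔ w ∈ L)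

/-- A deterministic Turing machine with a read-only input tape and `k` two-way infinite work
tapes.  A transition sees the state, the input symbol (`none` on the two end markers) and the
work symbols, and gives the new state, the move of the input head and, for every work tape, the
written symbol and the move. -/
structure WorkTM (A : Type) where
  Q : Type
  G : Type
  finQ : Finite Q
  finG : Finite G
  k : ℕ
  blank : G
  start : Q
  out : Q → Option Bool
  δ : Q → Option A → (Fin k → G) → Q × SignType × (Fin k → G × SignType)

/-- The symbol under the input head: the cells `0` and `n + 1` carry end markers, the cells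
`1, …, n` the input. -/
def inSym {A : Type} (w : List A) (i : ℕ) : Option A := if i = 0 then none else w[i - 1]?

/-- The input head cannot leave the cells `0, …, n + 1`. -/
def inMove {A : Type} (w : List A) (i : ℕ) (d : SignType) : ℕ :=
  min (w.length + 1) ((i : ℤ) + (d : ℤ)).toNat

namespace WorkTM

variable {A : Type} (M : WorkTM A)

/-- State, input head, work heads and work tapes. -/
structure Cfg where
  q : M.Q
  ip : ℕ
  pos : Fin M.k → ℤ
  tape : Fin M.k → ℤ → M.G

/-- The transition that applies in a configuration. -/
def act (w : List A) (c : M.Cfg) : M.Q × SignType × (Fin M.k → M.G × SignType) :=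
  M.δ c.q (inSym w c.ip) fun j => c.tape j (c.pos j)

/-- One step on input `w`; halting configurations do not change. -/
def step (w : List A) (c : M.Cfg) : M.Cfg :=
  if (M.out c.q).isSome then c else
    ⟨(M.act w c).1, inMove w c.ip (M.act w c).2.1,
      fun j => c.pos j + (((M.act w c).2.2 j).2 : ℤ),
      fun j => update (c.tape j) (c.pos j) ((M.act w c).2.2 j).1⟩

/-- All heads start on cell `0`, the work tapes are blank. -/
def init : M.Cfg := ⟨M.start, 0, fun _ => 0, fun _ _ => M.blank⟩

end WorkTM

/-- `L ∈ SPACE[s]`: some machine with a read-only input tape halts on every input with the answer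
`true` exactly on `L`, and on inputs of length `n` its work heads never leave the cells at
distance at most `C * (s n + 1)` from the origin. -/
def SPACE {A : Type} (s : ℕ → ℝ) (L : Set (List A)) : Prop :=
  ∃ (M : WorkTM A) (C : ℝ), ∀ w : List A,
    (∃ (T : ℕ) (b : Bool), M.out ((M.step w)^[T] M.init).q = some b ∧ (b = true ↔ w ∈ L)) ∧
    ∀ (T : ℕ) (j : Fin M.k), ((|((M.step w)^[T] M.init).pos j| : ℤ) : ℝ) ≤ C * (s w.length + 1)

end Vale.Agent.P312
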