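import Vale.Agent.P312.LS

/-! A linear space step function with access to the input tape gives a space bounded machine;
task stacks. -/

namespace Vale.Agent.P312

open Function
open Vale.Agent.Common.TreeTM hiding Ev ev_const st compile drop dup swap mv mvA mvB mvAB flush
  isS mvBody

open Enc

variable {A : Type}

def pushL : List Bool → Prog A
  | [] => .skip
  | b :: l => .seq (pushL l) (.push 0 b)

theorem run_pushL {w : List A} {σ i : ℕ} (l d : List Bool) (h : l.length + d.length ≤ σ) :
    Run w σ (pushL l) (st d [] [] []) i (st (l ++ d) [] [] []) i := by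
  induction l with
  | nil => exact Run.skip _ _
  | cons b l ih =>
    simp only [List.length_cons] at h
    exact Run.seq (ih (by omega)) (push0 (by simp; omega))

def dirOf (b : Bool × Bool) : SignType := if b.1 then 1 else if b.2 then -1 else 0

def popB (P Q : Prog A) : Prog A :=
  .cond 0 isT (.seq (.pop 0) (.seq (.pop 0) (.seq (.pop 0) P))) (.seq (.pop 0) Q)

theorem run_popB {w : List A} {σ i : ℕ} {P Q : Prog A} (b : Bool) {d t j}
    (h : Run w σ (if b then P else Q) (st d [] [] []) i t j) :
    Run w σ (popB P Q) (st ((tb b).enc ++ d) [] [] []) i t j := by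
  cases b
  · exact Run.condF rfl (Run.seq pop0 h)
  · exact Run.condT rfl (Run.seq pop0 (Run.seq pop0 (Run.seq pop0 h)))

def mover : Prog A :=
  .seq (.pop 0) (.seq (.pop 0) (popB (popB (.mv 1) (.mv 1)) (popB (.mv (-1)) (.mv 0))))

theorem run_mover {w : List A} {σ i : ℕ} (b : Bool × Bool) (t : Tr) :
    Run w σ mover (st (Tr.cons (enc b) t).enc [] [] []) i (st t.enc [] [] [])
      (inMove w i (dirOf b)) := by
  obtain ⟨b1, b2⟩ := b
  refine Run.seq pop0 (Run.seq pop0 ?_)
  have : ((Tr.cons (enc (b1, b2)) t).enc.tail).tail = (tb b1).enc ++ ((tb b2).enc ++ t.enc) := by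
    simp [enc_pair, Tr.enc, enc_bool]
  rw [this]
  refine run_popB b1 ?_
  cases b1 <;> refine run_popB b2 ?_ <;> cases b2 <;> exact Run.mv _ _ _

variable {σ : Type} [Enc σ]

def dstep (code : Option A → ℕ) (F : ℕ × σ → (Bool × Bool) × σ) (w : List A) (x : σ × ℕ) :
    σ × ℕ :=
  ((F (code (inSym w x.2), x.1)).2, inMove w x.2 (dirOf (F (code (inSym w x.2), x.1)).1))

theorem space_of_step [Finite A] (code : Option A → ℕ) (F : ℕ × σ → (Bool × Bool) × σ)
    (cont out : σ → Bool) (s₀ : σ) (hF : LS F) (hc : LS cont) (ho : LS out) (L : Set (List A))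
    (s : ℕ → ℝ) (hs : ∀ n, 0 ≤ s n) (C : ℝ)
    (h : ∀ w : List A, ∃ N B : ℕ, (∀ i < N, cont ((dstep code F w)^[i] (s₀, 0)).1 = true) ∧
      cont ((dstep code F w)^[N] (s₀, 0)).1 = false ∧
      (out ((dstep code F w)^[N] (s₀, 0)).1 = true ↔ w ∈ L) ∧
      (∀ i ≤ N, sz ((dstep code F w)^[i] (s₀, 0)).1 ≤ B) ∧ (B : ℝ) ≤ C * (s w.length + 1)) :
    SPACE s L := by
  obtain ⟨G, mg, ⟨kg, g1⟩, -, g3⟩ : LS fun p : ℕ × Bool × σ =>
      ((F (p.1, p.2.2)).1, cont (F (p.1, p.2.2)).2, (F (p.1, p.2.2)).2) := by fun_prop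
  obtain ⟨O, mo, ⟨ko, o1⟩, -, o3⟩ : LS fun p : Bool × σ => out p.2 := by fun_prop
  obtain ⟨K, hK⟩ : ∃ K, ∀ a, sz (code a) ≤ K := by
    obtain ⟨K, hK⟩ := (Set.finite_range fun a => sz (code a)).bddAbove
    exact ⟨K, fun a => hK ⟨a, rfl⟩⟩
  let body : Prog A := .seq (.push 0 true) (.seq (.sym fun a => pushL (true :: (enc (code a)).enc))
    (.seq (compile G) (.seq mover (.pop 0))))
  let P : Prog A := .seq (pushL (enc (cont s₀, s₀)).enc.tail) (.seq (.loop 0 isT body)
    (.seq (.push 0 true) (compile O)))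
  set c := (dp G + dp O + 1) * (kg + ko + 1) with hcdef
  refine space_of_prog P L s (c * (C + K + 8)) fun w => ?_
  obtain ⟨N, B, h1, h2, h3, h4, h5⟩ := h w
  set x := fun i => (dstep code F w)^[i] (s₀, 0) with hx
  have hsz : ∀ i ≤ N, sz (cont (x i).1, (x i).1) ≤ B + 4 := by
    intro i hi
    have := h4 i hi
    have := sz_bool (cont (x i).1)
    rw [sz_pair]
    simp only [hx] at *
    omega
  have hb1 : B + K + 8 ≤ c * (B + K + 8) := Nat.le_mul_of_pos_left _ (by positivity)
  have hb2 : ∀ k d, k ≤ kg + ko → d ≤ dp G + dp O →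
      d * (k * (B + K + 5) + 3) ≤ c * (B + K + 8) := by
    intro k d hk hd
    rw [hcdef, mul_assoc]
    refine Nat.mul_le_mul (by omega) ?_
    nlinarith
  have key : ∀ i ≤ N, Lp w (c * (B + K + 8)) 0 isT body
      (st (enc (cont s₀, s₀)).enc.tail [] [] []) 0
      (st (enc (cont (x i).1, (x i).1)).enc.tail [] [] []) (x i).2 := by
    intro i
    induction i with
    | zero => intro _; exact Lp.refl
    | succ i ih =>
      intro hi
      have e1 := h1 i (by omega)
      have e2 := hsz i (by omega)
      have e3 := hK (inSym w (x i).2)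
      have e4 : x (i + 1) = dstep code F w (x i) := iterate_succ_apply' _ _ _
      refine (ih (by omega)).trans (Lp.one ?_ ?_)
      · simp only [hx] at e1 ⊢
        rw [e1]
        rfl
      · have e5 : sz (code (inSym w (x i).2), cont (x i).1, (x i).1) ≤ B + K + 5 := by
          rw [sz_pair]; omega
        have e6 := (g3 (code (inSym w (x i).2), cont (x i).1, (x i).1) (kg * (B + K + 5))
          ((g1 _).trans (Nat.mul_le_mul_left _ e5))).run (w := w) (σ := c * (B + K + 8))
          (i := (x i).2) [] (by simpa using hb2 kg (dp G) (by omega) (by omega))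
        simp only [List.append_nil] at e6
        refine Run.seq (t := st (enc (cont (x i).1, (x i).1)).enc [] [] []) (j := (x i).2)
          (push0 (by simp only [sz, Tr.sz, List.length_tail] at e2 ⊢; omega))
          (Run.seq (Run.sym (run_pushL _ _
            (by simp only [sz, Tr.sz, List.length_cons] at e2 e3 ⊢; omega)))
            (Run.seq e6 (Run.seq (run_mover _ _) ?_)))
        rw [e4]
        exact pop0
  have e2 := hsz N le_rfl
  have e0 := hsz 0 (Nat.zero_le _)
  have e6 := (o3 (cont (x N).1, (x N).1) (ko * (B + K + 5))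
    ((o1 _).trans (Nat.mul_le_mul_left _ (by omega)))).run (w := w) (σ := c * (B + K + 8))
    (i := (x N).2) [] (by simpa using hb2 ko (dp O) (by omega) (by omega))
  simp only [List.append_nil] at e6
  refine ⟨c * (B + K + 8), st (enc (out (x N).1)).enc [] [] [], (x N).2, out (x N).1, ?_, ?_, h3, ?_⟩
  · have e7 : (fun _ => []) = st [] [] [] [] := by
      funext r; fin_cases r <;> rfl
    rw [e7]
    refine Run.seq ((run_pushL _ [] (by
      simp only [sz, Tr.sz, hx, List.length_tail, iterate_zero, id, List.length_nil] at e0 ⊢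
      omega)).of_eq (by simp))
      (Run.seq ((key N le_rfl).run ?_) (Run.seq (t := st (enc (cont (x N).1, (x N).1)).enc [] [] [])
        (j := (x N).2) (push0 (by simp only [sz, Tr.sz, List.length_tail] at e2 ⊢; omega)) e6))
    simp only [hx] at h2 ⊢
    rw [h2]
    rfl
  · cases out (x N).1 <;> rfl
  · have := hs w.length
    push_cast
    rw [mul_assoc]
    refine mul_le_mul_of_nonneg_left ?_ (by positivity)
    have : (0 : ℝ) ≤ K := by positivity
    nlinarith

end Vale.Agent.P312
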