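import Vale.Agent.P312.Visit

/-! The visits describe the computation of the one-tape machine. -/

namespace Vale.Agent.P312

open Function

noncomputable section

namespace OneTape

variable {A : Type} (M : OneTape A)

def eQ : M.Q ≃ Fin (Nat.card M.Q) := @Finite.equivFin _ M.finQ
def eG : M.G ≃ Fin (Nat.card M.G) := @Finite.equivFin _ M.finG

def entry (q : M.Q) (g : M.G) : ℕ × ℕ × ℕ :=
  if (M.out q).isSome then (M.eQ q, M.eG g, 1)
  else (M.eQ (M.δ q g).1, M.eG (M.δ q g).2.1, (((M.δ q g).2.2 : ℤ) + 1).toNat)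

theorem entry_le (q : M.Q) (g : M.G) : (M.entry q g).1 < Nat.card M.Q ∧
    (M.entry q g).2.1 < Nat.card M.G ∧ (M.entry q g).2.2 ≤ 2 := by
  unfold entry
  split_ifs
  · exact ⟨Fin.is_lt _, Fin.is_lt _, by norm_num⟩
  · refine ⟨Fin.is_lt _, Fin.is_lt _, ?_⟩
    rcases (M.δ q g).2.2 with _ | _ | _ <;> simp

theorem step_entry (c : M.Cfg) : (M.eQ (M.step c).q : ℕ) = (M.entry c.q (c.tape c.pos)).1 ∧
    (∀ z, (M.eG ((M.step c).tape z) : ℕ) =
      if z = c.pos then (M.entry c.q (c.tape c.pos)).2.1 else M.eG (c.tape z)) ∧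
    (M.step c).pos = c.pos + (M.entry c.q (c.tape c.pos)).2.2 - 1 := by
  unfold step entry
  split_ifs with h
  · refine ⟨rfl, fun z => ?_, by simp⟩
    split_ifs with hz
    · rw [hz]
    · rfl
  · refine ⟨rfl, fun z => ?_, ?_⟩
    · simp only [update_apply]
      split_ifs <;> rfl
    · rcases (M.δ c.q (c.tape c.pos)).2.2 with _ | _ | _ <;> simp <;> omega

def ent' (i : ℕ) : ℕ × ℕ × ℕ :=
  if h : i / Nat.card M.G < Nat.card M.Q ∧ i % Nat.card M.G < Nat.card M.G then
    M.entry (M.eQ.symm ⟨_, h.1⟩) (M.eG.symm ⟨_, h.2⟩) else (0, 0, 0)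

def ansCode : Option Bool → ℕ
  | none => 0
  | some false => 1
  | some true => 2

def mc : Mc where
  nQ := Nat.card M.Q
  nG := Nat.card M.G
  K := Nat.card M.Q + Nat.card M.G + 2
  q₀ := M.eQ M.start
  tab := (List.range (Nat.card M.Q * Nat.card M.G)).map M.ent'
  ans := List.ofFn fun i : Fin (Nat.card M.Q) => ansCode (M.out (M.eQ.symm i))
  tab_le := by
    intro i
    have : ∀ i, (M.ent' i).1 ≤ Nat.card M.Q + Nat.card M.G + 2 ∧
        (M.ent' i).2.1 ≤ Nat.card M.Q + Nat.card M.G + 2 ∧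
        (M.ent' i).2.2 ≤ Nat.card M.Q + Nat.card M.G + 2 := by
      intro i
      unfold ent'
      split_ifs with h
      · have := M.entry_le (M.eQ.symm ⟨_, h.1⟩) (M.eG.symm ⟨_, h.2⟩)
        omega
      · simp
    by_cases h : i < Nat.card M.Q * Nat.card M.G
    · rw [List.getD_eq_getElem _ _ (by simpa using h)]
      simpa using this i
    · rw [List.getD_eq_default _ _ (by simpa using h)]
      simp

theorem tab_eq (q : M.Q) (g : M.G) :
    M.mc.tab.getD (M.eQ q * M.mc.nG + M.eG g) (0, 0, 0) = M.entry q g := by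
  have h1 := (M.eQ q).is_lt
  have h2 := (M.eG g).is_lt
  have h3 : (M.eQ q * Nat.card M.G + M.eG g) / Nat.card M.G = M.eQ q := by
    rw [add_comm, Nat.add_mul_div_right _ _ (by omega), Nat.div_eq_of_lt h2, zero_add]
  have h4 : (M.eQ q * Nat.card M.G + M.eG g) % Nat.card M.G = M.eG g := by
    rw [add_comm, Nat.add_mul_mod_self_right, Nat.mod_eq_of_lt h2]
  simp only [mc]
  rw [List.getD_eq_getElem _ _ (by simp; nlinarith)]
  simp only [List.getElem_map, List.getElem_range, ent', h3, h4, h1, h2, and_self, dif_pos,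
    Fin.eta, Equiv.symm_apply_apply]

theorem ans_eq (q : M.Q) : M.mc.ans.getD (M.eQ q) 0 = ansCode (M.out q) := by
  simp [mc]

def code (o : Option A) : ℕ := M.eG ((o.map M.inp).getD M.blank)

theorem nQ_pos : 0 < M.mc.nQ := (M.eQ M.start).pos

variable (w : List A)

def cf (s : ℕ) : M.Cfg := M.step^[s] (M.init w)

theorem cf_succ (s : ℕ) : M.cf w (s + 1) = M.step (M.cf w s) := iterate_succ_apply' _ _ _

theorem pos_succ (s : ℕ) : (M.cf w s).pos - 1 ≤ (M.cf w (s + 1)).pos ∧
    (M.cf w (s + 1)).pos ≤ (M.cf w s).pos + 1 := by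
  have h1 := (M.step_entry (M.cf w s)).2.2
  have h2 := (M.entry_le (M.cf w s).q ((M.cf w s).tape (M.cf w s).pos)).2.2
  rw [cf_succ]
  omega

theorem pos_le (s : ℕ) : -(s : ℤ) ≤ (M.cf w s).pos ∧ (M.cf w s).pos ≤ s := by
  induction s with
  | zero => simp [cf, init]
  | succ s ih =>
    have := M.pos_succ w s
    push_cast
    omega

theorem out_mono {s s' : ℕ} {x : Bool} (h : M.out (M.cf w s).q = some x) (hs : s ≤ s') :
    M.out (M.cf w s').q = some x := by
  obtain ⟨k, rfl⟩ := Nat.exists_eq_add_of_le hs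
  have : M.step (M.cf w s) = M.cf w s := by simp [step, h]
  rw [cf, add_comm, iterate_add_apply]
  exact (congrArg (fun c => M.out c.q) (iterate_fixed this k)).trans h

variable (b D : ℕ)

def blockOf (c : M.Cfg) (J : ℕ) : List ℕ :=
  (List.range b).map fun j => M.eG (c.tape (((J * b + j : ℕ) : ℤ) - D))

def yy (s : ℕ) : ℕ := ((M.cf w s).pos + D).toNat

theorem cstep_eq (hb : 0 < b) (s J : ℕ) (hs : s < D) (hJ : M.yy w D s / b = J) :
    M.mc.cstep b J (M.blockOf b D (M.cf w s) J, M.eQ (M.cf w s).q, M.yy w D s) =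
      (M.blockOf b D (M.cf w (s + 1)) J, (M.eQ (M.cf w (s + 1)).q : ℕ), M.yy w D (s + 1)) ∧
    ∀ J' ≠ J, M.blockOf b D (M.cf w (s + 1)) J' = M.blockOf b D (M.cf w s) J' := by
  obtain ⟨h1, h2, h3⟩ := M.step_entry (M.cf w s)
  rw [← cf_succ] at h1 h2 h3
  have hp := M.pos_le w s
  have hy : (M.yy w D s : ℤ) = (M.cf w s).pos + D := Int.toNat_of_nonneg (by omega)
  have hm := Nat.mod_lt (M.yy w D s) hb
  have hd := Nat.div_add_mod (M.yy w D s) b
  rw [hJ, mul_comm] at hd
  have he : M.mc.ent b (M.blockOf b D (M.cf w s) J, M.eQ (M.cf w s).q, M.yy w D s) =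
      M.entry (M.cf w s).q ((M.cf w s).tape (M.cf w s).pos) := by
    rw [← tab_eq]
    unfold Mc.ent blockOf
    congr 2
    rw [List.getD_eq_getElem _ _ (by simpa using hm)]
    simp only [List.getElem_map, List.getElem_range, hd, hy, add_sub_cancel_right]
  constructor
  · unfold Mc.cstep
    simp only [neq_eq, hJ, decide_true, Bool.cond_true, he, h1]
    congr 2
    · apply List.ext_getElem (by simp [blockOf])
      intro j a1 a2
      simp only [blockOf, List.getElem_set, List.getElem_map, List.getElem_range, h2]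
      congr 1
      apply propext
      constructor <;> intro h <;> omega
    · simp only [yy] at hy ⊢
      omega
  · intro J' hJ'
    unfold blockOf
    refine List.map_congr_left fun j hj => ?_
    rw [h2, if_neg]
    intro h
    apply hJ'
    have h4 : J' * b + j = M.yy w D s := by omega
    rw [← hJ, ← h4, add_comm, Nat.add_mul_div_right _ _ hb,
      Nat.div_eq_of_lt (List.mem_range.1 hj), zero_add]

theorem vis_eq (hb : 0 < b) (s J : ℕ) (hs : s + b ≤ D) (hJ : M.yy w D s / b = J) :
    ∀ k ≤ b, ∃ k' ≤ k, rep (fun _ x => M.mc.cstep b J x)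
        (M.blockOf b D (M.cf w s) J, M.eQ (M.cf w s).q, M.yy w D s) k =
      (M.blockOf b D (M.cf w (s + k')) J, (M.eQ (M.cf w (s + k')).q : ℕ), M.yy w D (s + k')) ∧
      (∀ J' ≠ J, M.blockOf b D (M.cf w (s + k')) J' = M.blockOf b D (M.cf w s) J') ∧
      (∀ i < k', M.yy w D (s + i) / b = J) ∧ (k' = k ∨ M.yy w D (s + k') / b ≠ J) := by
  intro k
  induction k with
  | zero => exact fun _ => ⟨0, le_rfl, rfl, fun _ _ => rfl, fun _ h => by omega, Or.inl rfl⟩
  | succ k ih =>
    intro hk
    obtain ⟨k', a1, a2, a3, a4, a5⟩ := ih (by omega)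
    by_cases h : M.yy w D (s + k') / b = J
    · obtain ⟨b1, b2⟩ := M.cstep_eq w b D hb (s + k') J (by omega) h
      refine ⟨k' + 1, by omega, by rw [rep, a2, b1, add_assoc], fun J' hJ' => ?_, fun i hi => ?_,
        Or.inl (by omega)⟩
      · rw [← add_assoc, b2 J' hJ', a3 J' hJ']
      · rcases Nat.lt_succ_iff_lt_or_eq.1 hi with hi | rfl
        · exact a4 i hi
        · exact h
    · refine ⟨k', by omega, ?_, a3, a4, Or.inr h⟩
      rw [rep, a2]
      simp [Mc.cstep, neq_eq, h]

/-- Number of crossings of block boundaries before time `s`. -/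
def cross (s : ℕ) : ℕ :=
  ((Finset.range s).filter fun i => M.yy w D i / b ≠ M.yy w D (i + 1) / b).card

theorem cross_mono {s s' : ℕ} (h : s ≤ s') : M.cross w b D s ≤ M.cross w b D s' :=
  Finset.card_le_card (Finset.filter_subset_filter _ (Finset.range_mono h))

def c₀ (J : ℕ) : List ℕ := (List.range b).map fun j => M.code (inSym w (J * b + j + 1 - D))

def r₀ : ℕ := D * M.mc.nQ + M.mc.q₀

theorem proc_eq (hb : 0 < b) : ∀ i, i * b ≤ D → ∃ s ≤ i * b,
    M.mc.rc b (M.r₀ D) (M.c₀ w b D) i = M.yy w D s * M.mc.nQ + M.eQ (M.cf w s).q ∧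
    (∀ J, M.mc.ct b (M.r₀ D) (M.c₀ w b D) i J = M.blockOf b D (M.cf w s) J) ∧
    i * b ≤ s + b * M.cross w b D s := by
  intro i
  induction i with
  | zero =>
    refine fun _ => ⟨0, by simp, by simp [Mc.rc, Mc.proc, r₀, yy, cf, init, mc], fun J => ?_,
      by simp⟩
    simp only [Mc.ct, Mc.proc, c₀, blockOf, cf, iterate_zero, id, init, code, inSym]
    refine List.map_congr_left fun j _ => ?_
    by_cases h : D ≤ J * b + j
    · rw [if_neg (by omega), if_pos (by omega)]
      congr 5
      omega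
    · rw [if_pos (by omega), if_neg (by omega)]
      rfl
  | succ i ih =>
    intro hi
    rw [Nat.succ_mul] at hi
    obtain ⟨s, a1, a2, a3, a4⟩ := ih (by omega)
    have hq : (M.eQ (M.cf w s).q : ℕ) < M.mc.nQ := Fin.is_lt _
    have e1 : M.mc.rc b (M.r₀ D) (M.c₀ w b D) i / M.mc.nQ = M.yy w D s := by
      rw [a2, add_comm, Nat.add_mul_div_right _ _ M.nQ_pos, Nat.div_eq_of_lt hq, zero_add]
    have e2 : M.mc.rc b (M.r₀ D) (M.c₀ w b D) i % M.mc.nQ = M.eQ (M.cf w s).q := by
      rw [a2, add_comm, Nat.add_mul_mod_self_right, Nat.mod_eq_of_lt hq]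
    obtain ⟨k, b1, b2, b3, b4, b5⟩ := M.vis_eq w b D hb s _ (by omega) rfl b le_rfl
    have e3 : M.mc.blk b (M.mc.rc b (M.r₀ D) (M.c₀ w b D) i) = M.yy w D s / b := by
      rw [Mc.blk, e1]
    have e4 : M.mc.vis b (M.yy w D s / b) (M.blockOf b D (M.cf w s) (M.yy w D s / b))
        (M.mc.rc b (M.r₀ D) (M.c₀ w b D) i) = (M.blockOf b D (M.cf w (s + k)) (M.yy w D s / b),
          (M.eQ (M.cf w (s + k)).q : ℕ), M.yy w D (s + k)) := by
      rw [Mc.vis, e1, e2, ← b2]
      congr 2
      rw [blockOf, List.map_map]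
      refine List.map_congr_left fun j _ => min_eq_left ?_
      refine (Fin.is_lt _).le.trans ?_
      simp only [mc]
      omega
    simp only [Mc.rc, Mc.ct] at a3 e3 e4 ⊢
    refine ⟨s + k, by rw [Nat.succ_mul]; omega, ?_, fun J => ?_, ?_⟩
    · simp only [Mc.proc, Mc.visit, e3, a3, e4]
    · simp only [Mc.proc, Mc.visit, e3, a3, e4]
      by_cases hJ : J = M.yy w D s / b
      · subst hJ
        simp
      · rw [update_of_ne hJ, a3, b3 J hJ]
    · rw [Nat.succ_mul]
      rcases b5 with rfl | b5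
      · have := Nat.mul_le_mul_left k (M.cross_mono w k D (Nat.le_add_right s k))
        omega
      · obtain ⟨k, rfl⟩ : ∃ k', k = k' + 1 := ⟨k - 1, by
          rcases k with _ | k
          · exact absurd rfl b5
          · rfl⟩
        have h1 : M.cross w b D (s + (k + 1)) = M.cross w b D (s + k) + 1 := by
          unfold cross
          rw [← add_assoc, Finset.range_add_one, Finset.filter_insert, if_pos, Finset.card_insert_of_notMem (by simp)]
          rw [b4 k (by omega)]
          exact fun h => b5 h.symm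
        have := Nat.mul_le_mul_left b (M.cross_mono w b D (Nat.le_add_right s k))
        rw [h1, mul_add]
        omega

theorem exists_offset (hb : 0 < b) (W T : ℕ) (hT : T ≤ W) :
    ∃ o < b, b * M.cross w b (o + W) T ≤ T := by
  by_contra hcon
  push Not at hcon
  have h1 : ∑ o ∈ Finset.range b, M.cross w b (o + W) T ≤ T := by
    simp only [cross, Finset.card_filter]
    rw [Finset.sum_comm]
    refine (Finset.sum_le_card_nsmul _ _ 1 fun i hi => ?_).trans (by simp)
    rw [← Finset.card_filter, Finset.card_le_one]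
    intro o ho o' ho'
    simp only [Finset.mem_filter, Finset.mem_range] at ho ho' hi
    have p1 := M.pos_le w i
    have p2 := M.pos_le w (i + 1)
    have p3 := M.pos_succ w i
    obtain ⟨z, hz⟩ : ∃ z : ℕ, ∀ o, M.yy w (o + W) i / b ≠ M.yy w (o + W) (i + 1) / b →
        b ∣ z + o + 1 := by
      refine ⟨(min (M.cf w i).pos (M.cf w (i + 1)).pos + W).toNat, fun o h => ?_⟩
      by_contra hd
      apply h
      have := Nat.succ_div_of_not_dvd hd
      unfold yy
      rcases lt_trichotomy (M.cf w i).pos (M.cf w (i + 1)).pos with h | h | h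
      · rw [show ((M.cf w (i + 1)).pos + (o + W : ℕ)).toNat =
          (min (M.cf w i).pos (M.cf w (i + 1)).pos + W).toNat + o + 1 by omega, this]
        congr 1
        omega
      · rw [h]
      · rw [show ((M.cf w i).pos + (o + W : ℕ)).toNat =
          (min (M.cf w i).pos (M.cf w (i + 1)).pos + W).toNat + o + 1 by omega, this]
        congr 1
        omega
    have d1 := hz o ho.2
    have d2 := hz o' ho'.2
    rcases le_total o o' with h | h
    · have := Nat.eq_zero_of_dvd_of_lt (Nat.dvd_sub d2 d1) (by omega)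
      omega
    · have := Nat.eq_zero_of_dvd_of_lt (Nat.dvd_sub d1 d2) (by omega)
      omega
  have h2 : ∑ o ∈ Finset.range b, T < ∑ o ∈ Finset.range b, b * M.cross w b (o + W) T :=
    Finset.sum_lt_sum_of_nonempty ⟨0, by simpa using hb⟩ fun o ho => hcon o (by simpa using ho)
  rw [← Finset.mul_sum, Finset.sum_const, Finset.card_range, smul_eq_mul] at h2
  have := Nat.mul_le_mul_left b h1
  omega

end OneTape

end

end Vale.Agent.P312
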