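import Vale.Agent.P312.Main
import Vale.Agent.P312.Link
import Mathlib.Analysis.SpecialFunctions.Pow.Asymptotics
import Mathlib.Analysis.Complex.ExponentialBounds

/-! The simulation theorem. -/

namespace Vale.Agent.P312

open Function
open Vale.Agent.Common.TreeTM hiding Ev ev_const st compile drop dup swap mv mvA mvB mvAB flush
  isS mvBody

variable {A : Type}

namespace OneTape

variable (M : OneTape A) (w : List A)

theorem good (m o : ℕ) (ho : o < LL m) :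
    M.mc.Good m (M.r₀ (DD m o)) (M.c₀ w (LL m) (DD m o)) := by
  intro i hi
  have h1 := Nat.mul_le_mul_right (LL m) hi
  obtain ⟨s, a1, a2, a3, -⟩ := M.proc_eq w (LL m) (DD m o) (by omega) i (by unfold DD; omega)
  have hq : (M.eQ (M.cf w s).q : ℕ) < M.mc.nQ := Fin.is_lt _
  have h2 : M.yy w (DD m o) s < NB m * LL m := by
    have := M.pos_le w s
    unfold yy NB DD
    rw [add_mul, mul_assoc]
    omega
  refine ⟨?_, ?_, fun J => ?_⟩
  · have := Nat.mul_le_mul_right M.mc.nQ (Nat.succ_le_of_lt h2)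
    rw [Nat.succ_mul] at this
    unfold Mc.NN
    omega
  · rw [Mc.blk, a2, add_comm, Nat.add_mul_div_right _ _ M.nQ_pos, Nat.div_eq_of_lt hq, zero_add]
    exact Nat.div_lt_of_lt_mul (by rwa [mul_comm])
  · rw [a3]
    refine ⟨by simp [blockOf], fun x hx => ?_⟩
    obtain ⟨j, -, rfl⟩ := List.mem_map.1 hx
    refine (Fin.is_lt _).trans ?_
    show M.mc.nG < _
    unfold Mc.NN
    omega

theorem an_eq (m o R : ℕ) : ∃ s, Ctx.an ⟨M.code, w, M.mc, m, o, R⟩ = ansCode (M.out (M.cf w s).q) ∧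
    VV m * LL m ≤ s + LL m * M.cross w (LL m) (DD m o) s := by
  obtain ⟨s, -, a2, -, a4⟩ := M.proc_eq w (LL m) (DD m o) (Nat.succ_pos _) (VV m)
    (Nat.le_add_left _ _)
  refine ⟨s, ?_, a4⟩
  rw [← ans_eq]
  show M.mc.ans.getD (M.mc.rc (LL m) (M.r₀ (DD m o)) (M.c₀ w (LL m) (DD m o)) (VV m) % M.mc.nQ) 0 = _
  rw [a2, add_comm, Nat.add_mul_mod_self_right]
  exact congrArg (M.mc.ans.getD · 0) (Nat.mod_eq_of_lt (Fin.is_lt _))

end OneTape

theorem QQ_lt (M : Mc) {a k m : ℕ} (ha : 404 * (M.nQ + M.nG + 1) < 2 ^ a) (hm : 0 < m)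
    (hk : m ≤ 2 ^ k) : M.QQ m < 2 ^ (a + 10 * k) := by
  have h1 : m ≤ m * m := Nat.le_mul_self m
  have h2 : m * m ≤ m * (m * m) := Nat.le_mul_of_pos_left _ hm
  have h3 : NB m ≤ 5 * m ^ 3 := by
    have : NB m = 4 * (m * (m * m)) + 1 := by unfold NB VV; ring
    rw [show m ^ 3 = m * (m * m) by ring]
    omega
  have h4 : LL m ≤ 2 * m ^ 2 := by unfold LL; rw [sq]; omega
  have h5 : M.NN m ≤ 10 * m ^ 5 * (M.nQ + M.nG + 1) := by
    have b1 := Nat.mul_le_mul_right M.nQ (Nat.mul_le_mul h3 h4)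
    have b2 : M.nG + 1 ≤ 10 * m ^ 5 * (M.nG + 1) := Nat.le_mul_of_pos_left _ (by positivity)
    rw [show 5 * m ^ 3 * (2 * m ^ 2) = 10 * m ^ 5 by ring] at b1
    rw [add_assoc, mul_add]
    unfold Mc.NN
    omega
  have h6 := Nat.mul_le_mul h3 (Nat.mul_le_mul (Nat.mul_le_mul_left 2 h4) h5)
  rw [show 5 * m ^ 3 * (2 * (2 * m ^ 2) * (10 * m ^ 5 * (M.nQ + M.nG + 1))) =
    200 * ((M.nQ + M.nG + 1) * m ^ 10) by ring] at h6
  have h7 : 0 < (M.nQ + M.nG + 1) * m ^ 10 := by positivity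
  have h8 := Nat.mul_le_mul ha.le (Nat.pow_le_pow_left hk 10)
  rw [← pow_mul, ← pow_add, mul_comm k, mul_assoc] at h8
  have := (QQ_spec M m).2.2
  omega

theorem root_bound (a T : ℕ) : ∃ m k : ℕ, 0 < m ∧ T ≤ m ^ 5 ∧ m ≤ 2 ^ k ∧
    (((a + 10 * k) * (m * m) : ℕ) : ℝ) ≤
      (8 * a + 120) * ((T : ℝ) ^ (2 / 5 : ℝ) * Real.log (T + 2) + 1) := by
  rcases Nat.eq_zero_or_pos T with rfl | hT
  · refine ⟨1, 0, one_pos, by simp, by simp, ?_⟩
    have : (0 : ℝ) ≤ a := by positivity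
    simp
    linarith
  have hT' : (1 : ℝ) ≤ T := by exact_mod_cast hT
  set x : ℝ := (T : ℝ) ^ (1 / 5 : ℝ) with hx
  have h1 : 1 ≤ x := Real.one_le_rpow hT' (by norm_num)
  have h2 : x ^ 5 = T := by
    rw [hx, ← Real.rpow_natCast, ← Real.rpow_mul (by positivity)]
    norm_num
  have h3 : x ^ 2 = (T : ℝ) ^ (2 / 5 : ℝ) := by
    rw [hx, ← Real.rpow_natCast, ← Real.rpow_mul (by positivity)]
    norm_num
  have h4 : (⌈x⌉₊ : ℝ) ≤ 2 * x := (Nat.ceil_lt_add_one (by linarith)).le.trans (by linarith)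
  have h5 : ⌈x⌉₊ ≤ T := Nat.ceil_le.2 (h2 ▸ le_self_pow₀ h1 (by norm_num))
  have h6 := Real.log_two_gt_d9
  have h7 : Real.log 2 ≤ Real.log (T + 2) := Real.log_le_log (by norm_num) (by linarith)
  have h8 : (Nat.log 2 T : ℝ) * Real.log 2 ≤ Real.log (T + 2) := by
    rw [← Real.log_pow]
    refine Real.log_le_log (by positivity) ?_
    have : ((2 ^ Nat.log 2 T : ℕ) : ℝ) ≤ T := by exact_mod_cast Nat.pow_log_le_self 2 hT.ne'
    push_cast at this
    linarith
  refine ⟨⌈x⌉₊, Nat.log 2 T + 1, Nat.ceil_pos.2 (by linarith), ?_,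
    h5.trans (Nat.lt_pow_succ_log_self (by norm_num) T).le, ?_⟩
  · have := pow_le_pow_left₀ (by linarith) (Nat.le_ceil x) 5
    rw [h2] at this
    exact_mod_cast this
  · push_cast
    rw [← h3]
    have b0 : (0 : ℝ) ≤ a := by positivity
    have b1 : (0 : ℝ) ≤ Nat.log 2 T := by positivity
    have b2 : (a : ℝ) + 10 * (Nat.log 2 T + 1) ≤ (2 * a + 30) * Real.log (T + 2) := by nlinarith
    have b3 : (⌈x⌉₊ : ℝ) * ⌈x⌉₊ ≤ 2 * x * (2 * x) := mul_self_le_mul_self (by positivity) h4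
    calc _ ≤ ((2 * a + 30) * Real.log (T + 2)) * (2 * x * (2 * x)) :=
          mul_le_mul b2 b3 (by positivity) (mul_nonneg (by positivity) (by linarith))
      _ = (8 * a + 120) * (x ^ 2 * Real.log (T + 2)) := by ring
      _ ≤ _ := by gcongr; linarith

theorem space_log [Finite A] (t : ℕ → ℕ) (L : Set (List A)) (h : TIME₁ t L) :
    SPACE (fun n => (t n : ℝ) ^ (2 / 5 : ℝ) * Real.log (t n + 2)) L := by
  obtain ⟨M, hM⟩ := h
  obtain ⟨a, ha⟩ : ∃ a, 404 * (M.mc.nQ + M.mc.nG + 1) < 2 ^ a := ⟨_, Nat.lt_two_pow_self⟩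
  have hs : ∀ n, 0 ≤ (t n : ℝ) ^ (2 / 5 : ℝ) * Real.log (t n + 2) := fun n =>
    mul_nonneg (by positivity) (Real.log_nonneg (by linarith [Nat.cast_nonneg (α := ℝ) (t n)]))
  refine space_of_go M.code M.mc.H (fun r => neq (M.mc.ansR r) 2) [12, 1, 0] (0, 0, [], [])
    (ls_H _) (by fun_prop) L _ hs (51000 * (8 * a + 120) + 2) fun w => ?_
  obtain ⟨x, h1, h2⟩ := hM w
  obtain ⟨m, k, b1, b2, b3, b4⟩ := root_bound a (t w.length)
  have b5 : 2 * m ^ 5 < VV m * LL m := by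
    have : VV m * LL m = 2 * m ^ 5 + 2 * m ^ 3 := by unfold VV LL; ring
    have : 0 < m ^ 3 := by positivity
    omega
  obtain ⟨o, c1, c2⟩ := M.exists_offset w (LL m) (Nat.succ_pos _) (VV m * LL m) (t w.length)
    (by omega)
  obtain ⟨r, d1, d2, d3⟩ := go_main M.code w M.mc (a + 10 * k) m o (w ∈ L) b1 c1
    (fun m' e1 e2 => QQ_lt _ ha e1 (e2.trans b3))
    (fun m' o' R _ e2 => ⟨M.good w m' o' e2, fun e3 => by
      obtain ⟨s, e4, -⟩ := M.an_eq w m' o' R
      rw [e4] at e3 ⊢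
      rw [← h2]
      rcases e5 : M.out (M.cf w s).q with _ | y
      · rw [e5] at e3
        exact absurd rfl e3
      · have e6 := (M.out_mono w e5 (le_max_left s (t w.length))).symm.trans
          (M.out_mono w h1 (le_max_right s (t w.length)))
        obtain rfl : y = x := Option.some.inj e6
        cases y <;> simp [OneTape.ansCode]⟩) fun R => by
      obtain ⟨s, e4, e5⟩ := M.an_eq w m o R
      have e6 : t w.length ≤ s := by
        by_contra e6
        have := Nat.mul_le_mul_left (LL m) (M.cross_mono w (LL m) (DD m o) (not_le.1 e6).le)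
        unfold DD at *
        omega
      rw [e4, M.out_mono w h1 e6]
      cases x <;> simp [OneTape.ansCode]
  refine ⟨_, _, r, 0, d1, d2, by simpa [neq_eq] using d3, ?_⟩
  have := hs w.length
  generalize (a + 10 * k) * (m * m) = z at b4
  push_cast
  nlinarith

theorem SPACE.mono {s s' : ℕ → ℝ} {L : Set (List A)} (h : SPACE s L) (hs : ∀ n, 0 ≤ s n) (K : ℝ)
    (hK : ∀ n, s n + 1 ≤ K * (s' n + 1)) : SPACE s' L := by
  obtain ⟨M, C, h⟩ := h
  refine ⟨M, |C| * K, fun w => ⟨(h w).1, fun T j => ((h w).2 T j).trans ?_⟩⟩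
  rw [mul_assoc]
  exact mul_le_mul (le_abs_self C) (hK _) (by linarith [hs w.length]) (abs_nonneg C)

theorem space_pow [Finite A] (e : ℝ) (he : 2 / 5 < e) (t : ℕ → ℕ) (L : Set (List A))
    (h : TIME₁ t L) : SPACE (fun n => (t n : ℝ) ^ e) L := by
  have hd : 0 < e - 2 / 5 := by linarith
  refine (space_log t L h).mono (fun n => mul_nonneg (by positivity)
    (Real.log_nonneg (by linarith [Nat.cast_nonneg (α := ℝ) (t n)])))
    (3 ^ (e - 2 / 5) / (e - 2 / 5) + 1) fun n => ?_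
  have h0 : (0 : ℝ) ≤ 3 ^ (e - 2 / 5) / (e - 2 / 5) := by positivity
  have h1 : (0 : ℝ) ≤ (t n : ℝ) ^ e := by positivity
  suffices (t n : ℝ) ^ (2 / 5 : ℝ) * Real.log (t n + 2) ≤
    3 ^ (e - 2 / 5) / (e - 2 / 5) * (t n : ℝ) ^ e by nlinarith
  rcases Nat.eq_zero_or_pos (t n) with h2 | h2
  · rw [h2, Nat.cast_zero, Real.zero_rpow (by norm_num), zero_mul]
    positivity
  have h3 : (1 : ℝ) ≤ t n := by exact_mod_cast h2
  calc _ ≤ (t n : ℝ) ^ (2 / 5 : ℝ) * ((3 * t n) ^ (e - 2 / 5) / (e - 2 / 5)) := by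
        gcongr
        exact (Real.log_le_log (by positivity) (by linarith)).trans
          (Real.log_le_rpow_div (by positivity) hd)
    _ = 3 ^ (e - 2 / 5) / (e - 2 / 5) * ((t n : ℝ) ^ (2 / 5 : ℝ) * (t n : ℝ) ^ (e - 2 / 5)) := by
        rw [Real.mul_rpow (by norm_num) (by positivity)]
        ring
    _ = _ := by rw [← Real.rpow_add (by positivity), add_sub_cancel]

end Vale.Agent.P312
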