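import Vale.Agent.P312.Drive

/-! Machines with a stack of tasks. -/

namespace Vale.Agent.P312

open Function
open Vale.Agent.Common.TreeTM hiding Ev ev_const st compile drop dup swap mv mvA mvB mvAB flush
  isS mvBody

variable {A τ ρ : Type} [Enc τ] [Enc ρ]

def wt (l : List τ) : ℕ := (l.map fun t => sz t + 1).sum

@[simp] theorem wt_nil : wt ([] : List τ) = 0 := rfl
@[simp] theorem wt_cons (t : τ) (l : List τ) : wt (t :: l) = sz t + 1 + wt l := by simp [wt]
@[simp] theorem wt_append (l l' : List τ) : wt (l ++ l') = wt l + wt l' := by simp [wt]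

theorem sz_eq_wt (l : List τ) : sz l = wt l + 1 := by
  induction l with
  | nil => rfl
  | cons t l ih => rw [sz_lcons, wt_cons, ih]; omega

inductive Go (code : Option A → ℕ) (H : ℕ × τ × ρ → (Bool × Bool) × List τ × ρ) (w : List A)
    (R B : ℕ) : List τ → ρ → ℕ → ρ → ℕ → Prop
  | nil (r i) : Go code H w R B [] r i r i
  | step (t us r i r' j) : wt (t :: us) ≤ B → sz r ≤ R →
      Go code H w R B ((H (code (inSym w i), t, r)).2.1 ++ us) (H (code (inSym w i), t, r)).2.2
        (inMove w i (dirOf (H (code (inSym w i), t, r)).1)) r' j →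
      Go code H w R B (t :: us) r i r' j

variable {code : Option A → ℕ} {H : ℕ × τ × ρ → (Bool × Bool) × List τ × ρ} {w : List A}

theorem Go.mono {R B R' B' : ℕ} {ts r i r' j} (h : Go code H w R B ts r i r' j) (hR : R ≤ R')
    (hB : B ≤ B') : Go code H w R' B' ts r i r' j := by
  induction h with
  | nil => exact Go.nil _ _
  | step t us r i r' j h1 h2 _ ih => exact Go.step _ _ _ _ _ _ (h1.trans hB) (h2.trans hR) ih

theorem Go.append {R B B' : ℕ} {ts us r i r₁ j r₂ k} (h : Go code H w R B ts r i r₁ j)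
    (h' : Go code H w R B' us r₁ j r₂ k) (hB : B + wt us ≤ B') :
    Go code H w R B' (ts ++ us) r i r₂ k := by
  induction h with
  | nil => exact h'
  | step t ts r i r' j h1 h2 _ ih =>
    have := ih h'
    rw [List.append_assoc] at this
    exact Go.step t (ts ++ us) _ _ _ _ (by simp at h1 ⊢; omega) h2 this

theorem Go.cons {R B B' : ℕ} {t us r i r₁ j r₂ k} (h : Go code H w R B [t] r i r₁ j)
    (h' : Go code H w R B' us r₁ j r₂ k) (hB : B + wt us ≤ B') :
    Go code H w R B' (t :: us) r i r₂ k := h.append h' hB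

def tstep (H : ℕ × τ × ρ → (Bool × Bool) × List τ × ρ) (p : ℕ × List τ × ρ) :
    (Bool × Bool) × List τ × ρ :=
  lcases p.2.1 ((false, false), p.2) fun t us =>
    ((H (p.1, t, p.2.2)).1, (H (p.1, t, p.2.2)).2.1 ++ us, (H (p.1, t, p.2.2)).2.2)

theorem Go.iter {R B : ℕ} {ts r i r' j} (h : Go code H w R B ts r i r' j) (hr : sz r' ≤ R) :
    ∃ N, (∀ k < N, isCons ((dstep code (tstep H) w)^[k] ((ts, r), i)).1.1 = true) ∧
      (dstep code (tstep H) w)^[N] ((ts, r), i) = (([], r'), j) ∧
      ∀ k ≤ N, sz ((dstep code (tstep H) w)^[k] ((ts, r), i)).1 ≤ B + R + 2 := by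
  induction h with
  | nil r i =>
    refine ⟨0, fun k hk => by omega, rfl, fun k hk => ?_⟩
    obtain rfl : k = 0 := by omega
    simp only [iterate_zero, id, sz_pair, sz_lnil]
    omega
  | step t us r i r' j h1 h2 _ ih =>
    obtain ⟨N, a1, a2, a3⟩ := ih hr
    refine ⟨N + 1, fun k hk => ?_, a2, fun k hk => ?_⟩
    · cases k with
      | zero => rfl
      | succ k => exact a1 k (by omega)
    · cases k with
      | zero =>
        simp only [iterate_zero, id, sz_pair, sz_eq_wt]
        omega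
      | succ k => exact a3 k (by omega)

theorem space_of_go [Finite A] (code : Option A → ℕ)
    (H : ℕ × τ × ρ → (Bool × Bool) × List τ × ρ) (out : ρ → Bool) (t₀ : τ) (r₀ : ρ) (hH : LS H)
    (ho : LS out) (L : Set (List A)) (s : ℕ → ℝ) (hs : ∀ n, 0 ≤ s n) (C : ℝ)
    (h : ∀ w : List A, ∃ (R B : ℕ) (r : ρ) (j : ℕ), Go code H w R B [t₀] r₀ 0 r j ∧ sz r ≤ R ∧
      (out r = true ↔ w ∈ L) ∧ ((B + R + 2 : ℕ) : ℝ) ≤ C * (s w.length + 1)) : SPACE s L := by
  have hF : LS (tstep H) := by
    unfold tstep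
    exact LS.lcases (by fun_prop) (by fun_prop) (by fun_prop)
  refine space_of_step code (tstep H) (fun x => isCons x.1) (fun x => out x.2) ([t₀], r₀) hF
    (by fun_prop) (by fun_prop) L s hs C fun w => ?_
  obtain ⟨R, B, r, j, h1, h2, h3, h4⟩ := h w
  obtain ⟨N, a1, a2, a3⟩ := h1.iter h2
  exact ⟨N, B + R + 2, a1, by rw [a2]; rfl, by rw [a2]; exact h3, a3, h4⟩

end Vale.Agent.P312
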