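import Vale.Agent.P312.Tree

/-! The class `LS` of functions computed by tree programs in linear space. -/

namespace Vale.Agent.P312

open Function
open Vale.Agent.Common.TreeTM hiding Ev ev_const

open Enc

variable {α β γ δ : Type} [Enc α] [Enc β] [Enc γ] [Enc δ]

def Lin (m : α → ℕ) : Prop := ∃ k, ∀ a, m a ≤ k * sz a

theorem Lin.mono {m m' : α → ℕ} (h : Lin m') (h1 : ∀ a, m a ≤ m' a) : Lin m := by
  obtain ⟨k, hk⟩ := h
  exact ⟨k, fun a => (h1 a).trans (hk a)⟩

theorem Lin.const (c : ℕ) : Lin (fun _ : α => c) :=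
  ⟨c, fun a => Nat.le_mul_of_pos_right _ (one_le_sz a)⟩

theorem Lin.add {m m' : α → ℕ} (h : Lin m) (h' : Lin m') : Lin fun a => m a + m' a := by
  obtain ⟨k, hk⟩ := h
  obtain ⟨k', hk'⟩ := h'
  exact ⟨k + k', fun a => by rw [add_mul]; exact Nat.add_le_add (hk a) (hk' a)⟩

theorem Lin.cmul {m : α → ℕ} (c : ℕ) (h : Lin m) : Lin fun a => c * m a := by
  obtain ⟨k, hk⟩ := h
  exact ⟨c * k, fun a => by rw [mul_assoc]; exact Nat.mul_le_mul_left _ (hk a)⟩

theorem Lin.sz : Lin fun a : α => sz a := ⟨1, fun a => by simp⟩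

theorem Lin.unif {m : β → ℕ} {S : α → ℕ} (hm : Lin m) (h : Lin S) :
    ∃ M : α → ℕ, Lin M ∧ ∀ a b, Common.TreeTM.sz b ≤ S a → m b ≤ M a := by
  obtain ⟨k, hk⟩ := hm
  exact ⟨_, h.cmul k, fun a b hb => (hk b).trans (Nat.mul_le_mul_left _ hb)⟩

theorem Lin.comp {m : β → ℕ} {g : α → β} (hm : Lin m)
    (h : Lin fun a => Common.TreeTM.sz (g a)) : Lin fun a => m (g a) := by
  obtain ⟨M, h1, h2⟩ := hm.unif h
  exact h1.mono fun a => h2 a _ le_rfl

@[fun_prop] def LS (f : α → β) : Prop :=
  ∃ (F : Fn) (m : α → ℕ), Lin m ∧ (Lin fun a => sz (f a)) ∧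
    ∀ a b, m a ≤ b → Ev b F (enc a) (enc (f a))

theorem LS.bd {f : α → β} (h : LS f) : Lin fun a => sz (f a) := h.choose_spec.choose_spec.2.1

theorem LS.of_enc {f : α → β} {g : α → γ} (h : LS f) (hg : ∀ a, enc (g a) = enc (f a)) :
    LS g := by
  obtain ⟨F, m, h1, h2, h3⟩ := h
  refine ⟨F, m, h1, h2.mono fun a => ?_, fun a => hg a ▸ h3 a⟩
  simp [sz, hg a]

theorem LS.of_eq {f g : α → β} (h : LS f) (hg : ∀ a, g a = f a) : LS g :=
  h.of_enc fun a => by rw [hg a]

@[fun_prop] theorem LS.id : LS fun a : α => a :=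
  ⟨.id, fun _ => 0, Lin.const _, Lin.sz, fun _ _ _ => rfl⟩

theorem ev_const {β : ℕ} {x : Tr} (hx : x.sz ≤ β) :
    ∀ t : Tr, t.sz ≤ β → Ev β (constFn t) x t := by
  intro t
  induction t with
  | nil => exact fun _ => ⟨rfl, hx⟩
  | cons a b iha ihb =>
    intro h
    rw [sz_cons] at h
    exact ⟨a, b, iha (by omega), ihb (by omega), rfl, hx, by omega, by omega⟩

@[fun_prop] theorem LS.const (b : β) : LS fun _ : α => b :=
  ⟨constFn (enc b), fun a => sz a + sz b, Lin.sz.add (Lin.const _), Lin.const _,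
    fun _ _ h => ev_const ((Nat.le_add_right _ _).trans h) _ ((Nat.le_add_left _ _).trans h)⟩

@[fun_prop] theorem LS.comp {f : β → γ} {g : α → β} (hf : LS f) (hg : LS g) :
    LS fun a => f (g a) := by
  obtain ⟨F, m, h1, h2, h3⟩ := hf
  obtain ⟨G, m', h1', h2', h3'⟩ := hg
  exact ⟨.comp F G, fun a => m (g a) + m' a, (h1.comp h2').add h1', h2.comp h2', fun a b h =>
    ⟨_, h3' a b ((Nat.le_add_left _ _).trans h), h3 _ b ((Nat.le_add_right _ _).trans h)⟩⟩

@[fun_prop] theorem LS.pair {f : α → β} {g : α → γ} (hf : LS f) (hg : LS g) :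
    LS fun a => (f a, g a) := by
  obtain ⟨F, m, h1, h2, h3⟩ := hf
  obtain ⟨G, m', h1', h2', h3'⟩ := hg
  refine ⟨.pair F G, fun a => m a + m' a + sz a + sz (g a) + sz (f a),
    (((h1.add h1').add Lin.sz).add h2').add h2,
    ((h2.add h2').add (Lin.const 1)).mono fun a => (sz_pair _ _).le, fun a b h => ?_⟩
  dsimp only at h
  exact ⟨_, _, h3 a b (by omega), h3' a b (by omega), rfl, show sz a ≤ b by omega,
    show sz (f a) ≤ b by omega, show sz (g a) ≤ b by omega⟩

theorem LS.fst' : LS fun p : α × β => p.1 :=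
  ⟨.fst, fun a => sz a, Lin.sz, Lin.sz.mono fun p => by
    have := sz_prod p
    show sz p.1 ≤ sz p
    omega, fun _ _ h => ⟨⟨_, rfl⟩, h⟩⟩

theorem LS.snd' : LS fun p : α × β => p.2 :=
  ⟨.snd, fun a => sz a, Lin.sz, Lin.sz.mono fun p => by
    have := sz_prod p
    show sz p.2 ≤ sz p
    omega, fun _ _ h => ⟨⟨_, rfl⟩, h⟩⟩

@[fun_prop] theorem LS.fst {f : α → β × γ} (hf : LS f) : LS fun a => (f a).1 :=
  LS.comp LS.fst' hf

@[fun_prop] theorem LS.snd {f : α → β × γ} (hf : LS f) : LS fun a => (f a).2 :=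
  LS.comp LS.snd' hf

@[fun_prop] theorem LS.cond {c : α → Bool} {f g : α → β} (hc : LS c) (hf : LS f)
    (hg : LS g) : LS fun a => cond (c a) (f a) (g a) := by
  obtain ⟨P, mp, p1, -, p3⟩ := LS.pair hc LS.id
  obtain ⟨F, m, h1, h2, h3⟩ := hf
  obtain ⟨G, m', h1', h2', h3'⟩ := hg
  refine ⟨.comp (.ite F G) P, fun a => mp a + m a + m' a, (p1.add h1).add h1',
    (h2.add h2').mono fun a => ?_, fun a b hb => ?_⟩
  · dsimp only
    cases c a <;> simp
  · dsimp only at hb p3 ⊢
    refine ⟨_, p3 a b (by omega), enc a, ?_⟩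
    cases c a
    · exact Or.inr ⟨rfl, h3' a b (by omega)⟩
    · exact Or.inl ⟨rfl, h3 a b (by omega)⟩

@[fun_prop] theorem LS.cons {f : α → β} {g : α → List β} (hf : LS f) (hg : LS g) :
    LS fun a => f a :: g a := (LS.pair hf hg).of_enc fun _ => rfl

theorem LS.isCons' : LS fun l : List α => isCons l := by
  refine ⟨.isCons, fun a => sz a, Lin.sz, (Lin.const 3).mono fun _ => sz_bool _, fun l _ h =>
    ⟨?_, h⟩⟩
  cases l with
  | nil => exact Or.inl ⟨rfl, rfl⟩
  | cons a l => exact Or.inr ⟨⟨_, _, rfl⟩, rfl⟩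

@[fun_prop] theorem LS.isCons {f : α → List β} (hf : LS f) : LS fun a => isCons (f a) :=
  LS.comp LS.isCons' hf

theorem LS.lcases {s : α → List β} {x : α → γ} {g : α → β → List β → γ} (hs : LS s)
    (hx : LS x) (hg : LS fun p : α × β × List β => g p.1 p.2.1 p.2.2) :
    LS fun a => lcases (s a) (x a) (g a) := by
  have hp : LS fun a => (a, s a) := LS.pair LS.id hs
  obtain ⟨P, mp, p1, -, p3⟩ := LS.pair (LS.isCons hs) hp
  obtain ⟨F, m, h1, h2, h3⟩ := LS.comp hx (LS.fst' (α := α) (β := List β))
  obtain ⟨G, m', h1', h2', h3'⟩ := hg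
  obtain ⟨M, M1, M2⟩ := h1'.unif hp.bd
  obtain ⟨N, N1, N2⟩ := h2'.unif hp.bd
  refine ⟨.comp (.ite G F) P, fun a => mp a + m (a, s a) + M a, (p1.add (h1.comp hp.bd)).add M1,
    (hx.bd.add N1).mono fun a => ?_, fun a b hb => ?_⟩
  · have := N2 a
    dsimp only at this ⊢
    generalize s a = l at this
    cases l with
    | nil => simp [Common.TreeTM.lcases]
    | cons b l =>
      have := this (a, b, l) le_rfl
      simp only [Common.TreeTM.lcases] at this ⊢
      omega
  · have h4 := M2 a
    dsimp only at hb p3 h4 ⊢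
    refine ⟨_, p3 a b (by omega), enc (a, s a), ?_⟩
    generalize s a = l at h4 hb
    cases l with
    | nil => exact Or.inr ⟨rfl, h3 (a, []) b (by omega)⟩
    | cons c l =>
      have := h4 (a, c, l) le_rfl
      exact Or.inl ⟨rfl, h3' (a, c, l) b (by omega)⟩

/-- The general loop. -/
theorem LS.iter {σ : Type} [Enc σ] {step : σ → σ} {cont : σ → Bool} {out : σ → γ}
    {init : α → σ} (hs : LS step) (hc : LS cont) (ho : LS out) (hi : LS init)
    {N S : α → ℕ} (hS : Lin S)
    (h1 : ∀ a, ∀ i < N a, cont (step^[i] (init a)) = true)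
    (h2 : ∀ a, cont (step^[N a] (init a)) = false)
    (h3 : ∀ a, ∀ i ≤ N a, sz (step^[i] (init a)) ≤ S a) :
    LS fun a => out (step^[N a] (init a)) := by
  obtain ⟨B, mb, b1, -, b3⟩ : LS fun p : Bool × σ => (cont (step p.2), step p.2) := by fun_prop
  obtain ⟨O, mo, o1, o2, o3⟩ : LS fun p : Bool × σ => out p.2 := by fun_prop
  obtain ⟨I, mi, i1, -, i3⟩ : LS fun a => (cont (init a), init a) :=
    LS.pair (LS.comp hc hi) hi
  have hS' : Lin fun a => S a + 4 := hS.add (Lin.const _)
  obtain ⟨MB, B1, B2⟩ := b1.unif hS'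
  obtain ⟨MO, O1, O2⟩ := o1.unif hS'
  obtain ⟨MZ, Z1, Z2⟩ := o2.unif hS'
  have hsz : ∀ a, ∀ i ≤ N a, sz (cont (step^[i] (init a)), step^[i] (init a)) ≤ S a + 4 := by
    intro a i hi
    have := h3 a i hi
    have := sz_bool (cont (step^[i] (init a)))
    rw [sz_pair]
    omega
  refine ⟨.comp O (.comp (.loop B) I), fun a => MB a + MO a + mi a + (S a + 4),
    ((B1.add O1).add i1).add hS', Z1.mono fun a => Z2 a _ (hsz a _ le_rfl), fun a b hb => ?_⟩
  dsimp only at hb ⊢
  refine ⟨enc (cont (step^[N a] (init a)), step^[N a] (init a)), ⟨_, i3 a b (by omega), N a,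
      ?_, (hsz a _ le_rfl).trans (by omega), ⟨_, by rw [h2 a]; rfl⟩⟩, o3 _ b ?_⟩
  · have key : ∀ i ≤ N a, Iter (fun u v => u.sz ≤ b ∧ Ev b B u v) i (enc (cont (init a), init a))
        (enc (cont (step^[i] (init a)), step^[i] (init a))) := by
      intro i
      induction i with
      | zero => intro _; rfl
      | succ i ih =>
        intro hi
        refine (ih (by omega)).trans (m := 1) ⟨⟨_, by rw [h1 a i (by omega)]; rfl⟩, _,
          ⟨(hsz a i (by omega)).trans (by omega), ?_⟩, rfl⟩
        rw [Function.iterate_succ_apply']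
        have := B2 a _ (hsz a i (by omega))
        exact b3 _ b (by omega)
    exact key _ le_rfl
  · have := O2 a _ (hsz a _ le_rfl)
    omega

@[fun_prop] theorem LS.not {f : α → Bool} (hf : LS f) : LS fun a => !(f a) :=
  (LS.cond hf (LS.const false) (LS.const true)).of_eq fun a => by cases f a <;> rfl

@[fun_prop] theorem LS.and {f g : α → Bool} (hf : LS f) (hg : LS g) :
    LS fun a => (f a && g a) :=
  (LS.cond hf hg (LS.const false)).of_eq fun a => by cases f a <;> rfl

@[fun_prop] theorem LS.or {f g : α → Bool} (hf : LS f) (hg : LS g) :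
    LS fun a => (f a || g a) :=
  (LS.cond hf (LS.const true) hg).of_eq fun a => by cases f a <;> rfl

@[fun_prop] theorem LS.tail {f : α → List β} (hf : LS f) : LS fun a => (f a).tail :=
  (LS.lcases (g := fun _ _ l => l) hf hf (by fun_prop)).of_eq fun a => by cases f a <;> rfl

@[fun_prop] theorem LS.headD {f : α → List β} {d : α → β} (hf : LS f) (hd : LS d) :
    LS fun a => (f a).headD (d a) :=
  (LS.lcases (g := fun _ b _ => b) hf hd (by fun_prop)).of_eq fun a => by cases f a <;> rfl

theorem LS.foldl_take {f : α → β → γ → β} {i : α → β} {l : α → List γ}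
    (hf : LS fun p : α × β × γ => f p.1 p.2.1 p.2.2) (hi : LS i) (hl : LS l) {S : α → ℕ}
    (hS : Lin S) (h : ∀ a k, sz (((l a).take k).foldl (f a) (i a)) ≤ S a) :
    LS fun a => (l a).foldl (f a) (i a) := by
  let step : α × β × List γ → α × β × List γ := fun s =>
    Common.TreeTM.lcases s.2.2 s fun c t => (s.1, f s.1 s.2.1 c, t)
  have hf' : LS fun p : (α × β × List γ) × γ × List γ => f p.1.1 p.1.2.1 p.2.1 :=
    LS.comp (g := fun p : (α × β × List γ) × γ × List γ => (p.1.1, p.1.2.1, p.2.1)) hf
      (by fun_prop)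
  have hstep : LS step := LS.lcases (by fun_prop) (by fun_prop) (by fun_prop)
  have key : ∀ a, ∀ k ≤ (l a).length, step^[k] (a, i a, l a) =
      (a, ((l a).take k).foldl (f a) (i a), (l a).drop k) := by
    intro a k
    induction k with
    | zero => intro _; rfl
    | succ k ih =>
      intro hk
      rw [Function.iterate_succ_apply', ih (by omega),
        List.drop_eq_getElem_cons (show k < (l a).length by omega),
        List.take_succ_eq_append_getElem (show k < (l a).length by omega), List.foldl_append]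
      rfl
  have := LS.iter (step := step) (cont := fun s => Common.TreeTM.isCons s.2.2)
    (out := fun s => s.2.1) (init := fun a => (a, i a, l a)) hstep (by fun_prop) (by fun_prop)
    (by fun_prop) (N := fun a => (l a).length)
    (S := fun a => sz a + S a + sz (l a) + 2)
    (((Lin.sz.add hS).add hl.bd).add (Lin.const _))
    (fun a k hk => by
      rw [key a k hk.le, List.drop_eq_getElem_cons hk]
      rfl)
    (fun a => by rw [key a _ le_rfl]; simp [Common.TreeTM.isCons])
    (fun a k hk => by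
      rw [key a k hk, sz_pair, sz_pair]
      have := h a k
      have := sz_drop (l a) k
      omega)
  refine this.of_eq fun a => ?_
  rw [key a _ le_rfl, List.take_length]

theorem LS.foldl_inv {f : α → β → γ → β} {i : α → β} {l : α → List γ}
    (hf : LS fun p : α × β × γ => f p.1 p.2.1 p.2.2) (hi : LS i) (hl : LS l) {S : α → ℕ}
    (hS : Lin S) (P : α → ℕ → β → Prop) (h0 : ∀ a, P a 0 (i a))
    (hs : ∀ a k acc x, x ∈ l a → P a k acc → P a (k + 1) (f a acc x))
    (h : ∀ a k acc, k ≤ (l a).length → P a k acc → sz acc ≤ S a) :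
    LS fun a => (l a).foldl (f a) (i a) :=
  LS.foldl_take hf hi hl hS fun a k => by
    obtain ⟨j, hj, h1⟩ := foldl_take_inv (P a) (f a) (l a) (i a) (h0 a) (hs a) k
    exact h a j _ hj h1

theorem sz_take (l : List α) (k : ℕ) : sz (l.take k) ≤ sz l := by
  induction l generalizing k with
  | nil => simp
  | cons b l ih =>
    cases k with
    | zero => rw [List.take_zero, sz_lnil]; exact one_le_sz _
    | succ k =>
      have := ih k
      rw [List.take_succ_cons, sz_lcons, sz_lcons]
      omega

theorem LS.foldl_grow {f : α → β → γ → β} {i : α → β} {l : α → List γ}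
    (hf : LS fun p : α × β × γ => f p.1 p.2.1 p.2.2) (hi : LS i) (hl : LS l)
    (c : ℕ) (h : ∀ a acc x, sz (f a acc x) ≤ sz acc + c * (sz x + 1)) :
    LS fun a => (l a).foldl (f a) (i a) := by
  refine LS.foldl_take hf hi hl (S := fun a => sz (i a) + c * sz (l a)) (hi.bd.add (hl.bd.cmul c))
    fun a k => ?_
  have : ∀ (t : List γ) (acc : β), sz (t.foldl (f a) acc) ≤ sz acc + c * sz t := by
    intro t
    induction t with
    | nil => intro acc; simp
    | cons x t ih =>
      intro acc
      have h1 := ih (f a acc x)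
      have h2 := h a acc x
      rw [List.foldl_cons, sz_lcons, show sz x + sz t + 1 = (sz x + 1) + sz t by omega, mul_add]
      omega
  exact (this _ _).trans (Nat.add_le_add_left (Nat.mul_le_mul_left _ (sz_take _ _)) _)

@[fun_prop] theorem LS.reverse {l : α → List β} (hl : LS l) : LS fun a => (l a).reverse :=
  (LS.foldl_grow (f := fun _ acc x => x :: acc) (i := fun _ => []) (by fun_prop) (by fun_prop) hl
    1 (fun a acc x => by
      rw [sz_lcons]
      omega)).of_eq fun a => by simp

theorem LS.map {f : α → β → γ} {l : α → List β}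
    (hf : LS fun p : α × β => f p.1 p.2) (hl : LS l) (c : ℕ)
    (h : ∀ a x, sz (f a x) ≤ c * (sz x + 1)) : LS fun a => (l a).map (f a) := by
  have hf' : LS fun p : α × List γ × β => f p.1 p.2.2 :=
    LS.comp (g := fun p : α × List γ × β => (p.1, p.2.2)) hf (by fun_prop)
  refine (LS.reverse (LS.foldl_grow (f := fun a acc x => f a x :: acc) (i := fun _ => [])
    (by fun_prop) (by fun_prop) hl (c + 1)
    (fun a acc x => by
      have := h a x
      rw [sz_lcons, add_mul]
      omega))).of_eq fun a => ?_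
  have : ∀ (l : List β) (acc : List γ), l.foldl (fun acc x => f a x :: acc) acc =
      (l.map (f a)).reverse ++ acc := by
    intro l
    induction l with
    | nil => simp
    | cons x l ih => intro acc; simp [ih]
  simp [this]

@[fun_prop] theorem LS.append {l l' : α → List β} (hl : LS l) (hl' : LS l') :
    LS fun a => l a ++ l' a :=
  (LS.foldl_grow (f := fun _ acc x => x :: acc) (i := l') (by fun_prop) hl' (LS.reverse hl)
    1 (fun a acc x => by
      rw [sz_lcons]
      omega)).of_eq fun a => by simp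

/-! ### Binary numbers -/

@[fun_prop] theorem LS.bits {f : α → ℕ} (hf : LS f) : LS fun a => (f a).bits :=
  hf.of_enc fun _ => rfl

@[fun_prop] theorem LS.div2 {f : α → ℕ} (hf : LS f) : LS fun a => (f a).div2 :=
  (LS.tail (LS.bits hf)).of_enc fun a => by
    rw [← Nat.div2_bits_eq_tail]
    rfl

@[fun_prop] theorem LS.bodd {f : α → ℕ} (hf : LS f) : LS fun a => (f a).bodd :=
  (LS.headD (LS.bits hf) (LS.const false)).of_eq fun a => by
    rw [Nat.bodd_eq_bits_head]
    cases (f a).bits <;> rfl

@[fun_prop] theorem LS.isPos {f : α → ℕ} (hf : LS f) : LS fun a => isPos (f a) :=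
  (LS.isCons (LS.bits hf)).of_eq fun a => by
    have := Nat.size_eq_bits_len (f a)
    have h2 := Nat.size_pos (n := f a)
    unfold Common.TreeTM.isPos Common.TreeTM.isCons
    cases h : (f a).bits with
    | nil =>
      rw [h] at this
      simp only [List.isEmpty_nil, Bool.not_true, decide_eq_false_iff_not]
      rw [← h2, ← this]
      simp
    | cons b l =>
      rw [h] at this
      simp only [List.isEmpty_cons, Bool.not_false, decide_eq_true_eq]
      rw [← h2, ← this]
      simp

@[fun_prop] theorem LS.bit {c : α → Bool} {f : α → ℕ} (hc : LS c) (hf : LS f) :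
    LS fun a => Nat.bit (c a) (f a) := by
  have : LS fun a => bif (c a || Common.TreeTM.isPos (f a)) then c a :: (f a).bits else [] := by
    fun_prop
  refine this.of_enc fun a => ?_
  show enc (Nat.bit (c a) (f a)).bits = _
  congr 1
  by_cases h : f a = 0
  · cases c a <;> simp [h, Common.TreeTM.isPos]
  · rw [Nat.bits_append_bit _ _ (fun h' => absurd h' h)]
    simp [Common.TreeTM.isPos, Nat.pos_of_ne_zero h]

@[fun_prop] theorem LS.digs {f g : α → ℕ} (hf : LS f) (hg : LS g) :
    LS fun a => digs (f a) (g a) := by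
  unfold Common.TreeTM.digs
  refine LS.snd (LS.snd (LS.foldl_grow
    (f := fun _ (s : ℕ × ℕ × List (Bool × Bool)) (_ : Bool) =>
      (s.1.div2, s.2.1.div2, (s.1.bodd, s.2.1.bodd) :: s.2.2))
    (by fun_prop) (by fun_prop) (by fun_prop) 8 ?_))
  rintro a ⟨x, y, l⟩ _
  have := sz_div2 x
  have := sz_div2 y
  have := sz_bool x.bodd
  have := sz_bool y.bodd
  simp only [sz_pair, sz_lcons]
  omega

@[fun_prop] theorem LS.add {f g : α → ℕ} (hf : LS f) (hg : LS g) :
    LS fun a => f a + g a := by
  have hd := LS.digs hf hg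
  refine (LS.fst (LS.foldl_inv (f := fun _ => addStep) (i := fun _ => (0, 1))
    (by unfold addStep; fun_prop) (by fun_prop) hd
    (S := fun a => 8 * sz (Common.TreeTM.digs (f a) (g a)) + 11)
    ((hd.bd.cmul _).add (Lin.const _))
    (fun _ k s => sz s.1 ≤ 4 * k + 5 ∧ sz s.2 ≤ 4 * k + 5) (fun _ => by decide) ?_ ?_)).of_eq
    fun a => ?_
  · rintro a k ⟨x, y⟩ ⟨p, q⟩ - ⟨h1, h2⟩
    have := sz_bit true x
    have := sz_bit false x
    have := sz_bit true y
    have := sz_bit false y
    cases p <;> cases q <;> simp only [addStep, Bool.cond_true, Bool.cond_false] at * <;> omega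
  · rintro a k ⟨x, y⟩ hk ⟨h1, h2⟩
    have := length_le_sz (Common.TreeTM.digs (f a) (g a))
    rw [sz_pair]
    dsimp only at *
    omega
  · have := add_fold (Common.TreeTM.digs (f a) (g a)) 0 0
    rw [dval_digs] at this
    exact (congrArg Prod.fst this).symm

theorem LS.subAux {f g : α → ℕ} (hf : LS f) (hg : LS g) :
    LS fun a => (decide (f a < g a), f a - g a, f a - g a - 1) := by
  have hd := LS.digs hf hg
  refine (LS.foldl_inv (f := fun _ => subStep) (i := fun _ => (false, 0, 0))
    (by unfold subStep; fun_prop) (by fun_prop) hd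
    (S := fun a => 8 * sz (Common.TreeTM.digs (f a) (g a)) + 15)
    ((hd.bd.cmul _).add (Lin.const _))
    (fun _ k s => sz s.2.1 ≤ 4 * k + 5 ∧ sz s.2.2 ≤ 4 * k + 5) (fun _ => by decide) ?_ ?_).of_eq
    fun a => ?_
  · rintro a k ⟨c, x, y⟩ ⟨p, q⟩ - ⟨h1, h2⟩
    have := sz_bit true x
    have := sz_bit false x
    have := sz_bit true y
    have := sz_bit false y
    have : sz (1 : ℕ) = 5 := by decide
    have : sz (0 : ℕ) = 1 := by decide
    cases c <;> cases h : Common.TreeTM.isPos x <;> cases p <;> cases q <;>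
      simp only [subStep, h, Bool.cond_true, Bool.cond_false] at * <;> omega
  · rintro a k ⟨c, x, y⟩ hk ⟨h1, h2⟩
    have := length_le_sz (Common.TreeTM.digs (f a) (g a))
    have := sz_bool c
    rw [sz_pair, sz_pair]
    dsimp only at *
    omega
  · have := sub_fold (Common.TreeTM.digs (f a) (g a)) 0 0
    rw [dval_digs] at this
    exact this.symm

@[fun_prop] theorem LS.sub {f g : α → ℕ} (hf : LS f) (hg : LS g) :
    LS fun a => f a - g a := LS.fst (LS.snd (LS.subAux hf hg))

@[fun_prop] theorem LS.nlt {f g : α → ℕ} (hf : LS f) (hg : LS g) :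
    LS fun a => nlt (f a) (g a) := LS.fst (LS.subAux hf hg)

@[fun_prop] theorem LS.mul {f g : α → ℕ} (hf : LS f) (hg : LS g) :
    LS fun a => f a * g a := by
  have hl : LS fun a => (g a).bits.reverse := by fun_prop
  refine (LS.foldl_inv (f := fun a acc c => acc + acc + bif c then f a else 0) (i := fun _ => 0)
    (by fun_prop) (by fun_prop) hl
    (S := fun a => 4 * (sz (f a) + sz (g a).bits.reverse) + 1)
    (((hf.bd.add hl.bd).cmul _).add (Lin.const _))
    (fun a k s => s + f a ≤ f a * 2 ^ k) (fun _ => by simp) ?_ ?_).of_eq fun a => ?_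
  · intro a k s c _ h
    rw [pow_succ, ← mul_assoc]
    cases c <;> simp only [Bool.cond_true, Bool.cond_false] <;> omega
  · intro a k s hk h
    refine sz_nat_le ?_
    have h1 := lt_two_pow_sz (f a)
    have h2 : 2 ^ k ≤ 2 ^ sz (g a).bits.reverse :=
      Nat.pow_le_pow_right (by norm_num) (hk.trans (length_le_sz _))
    rw [pow_add]
    calc s ≤ f a * 2 ^ k := by omega
      _ < _ := Nat.mul_lt_mul_of_lt_of_le h1 h2 (by positivity)
  · have : ∀ (l : List Bool) (s : ℕ),
        l.foldl (fun acc c => acc + acc + bif c then f a else 0) (f a * s) =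
        f a * l.foldl (fun acc c => Nat.bit c acc) s := by
      intro l
      induction l with
      | nil => simp
      | cons c l ih =>
        intro s
        rw [List.foldl_cons, List.foldl_cons, ← ih]
        congr 1
        cases c <;> simp [Nat.bit_val] <;> ring
    have h := this (g a).bits.reverse 0
    rw [bits_fold] at h
    exact h.symm

/-- A counted loop. -/
def rep (f : ℕ → β → β) (i : β) : ℕ → β
  | 0 => i
  | n + 1 => f n (rep f i n)

theorem LS.rep {f : α → ℕ → β → β} {i : α → β} {n : α → ℕ}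
    (hf : LS fun p : α × ℕ × β => f p.1 p.2.1 p.2.2) (hi : LS i) (hn : LS n) {S : α → ℕ}
    (hS : Lin S) (h : ∀ a, ∀ k ≤ n a, sz (rep (f a) (i a) k) ≤ S a) :
    LS fun a => rep (f a) (i a) (n a) := by
  let step : α × ℕ × β → α × ℕ × β := fun s => (s.1, s.2.1 + 1, f s.1 s.2.1 s.2.2)
  have key : ∀ a k, step^[k] (a, 0, i a) = (a, k, P312.rep (f a) (i a) k) := by
    intro a k
    induction k with
    | zero => rfl
    | succ k ih => rw [Function.iterate_succ_apply', ih]; rfl
  have := LS.iter (step := step) (cont := fun s => Common.TreeTM.nlt s.2.1 (n s.1))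
    (out := fun s => s.2.2) (init := fun a => (a, 0, i a)) (by fun_prop) (by fun_prop)
    (by fun_prop) (by fun_prop) (N := n) (S := fun a => sz a + (4 * sz (n a) + 1) + S a + 2)
    (((Lin.sz.add ((hn.bd.cmul 4).add (Lin.const _))).add hS).add (Lin.const _))
    (fun a k hk => by rw [key]; simpa [Common.TreeTM.nlt] using hk)
    (fun a => by rw [key]; simp [Common.TreeTM.nlt])
    (fun a k hk => by
      rw [key, sz_pair, sz_pair]
      have := h a k hk
      have := sz_nat_mono hk
      omega)
  exact this.of_eq fun a => by rw [key]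

omit [Enc β] in
theorem rep_inv (P : β → Prop) {f : ℕ → β → β} {i : β} (h0 : P i) (hs : ∀ k x, P x → P (f k x))
    (k : ℕ) : P (rep f i k) := by
  induction k with
  | zero => exact h0
  | succ k ih => exact hs _ _ ih

theorem LS.divAux {f g : α → ℕ} (hf : LS f) (hg : LS g) :
    LS fun a => (f a / g a, f a % g a) := by
  have key : ∀ a k, P312.rep (fun _ (s : ℕ × ℕ) =>
      bif Common.TreeTM.nlt (s.2 + 1) (g a) || !Common.TreeTM.isPos (g a) then (s.1, s.2 + 1)
      else (s.1 + 1, 0)) (0, 0) k = (k / g a, k % g a) := by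
    intro a k
    induction k with
    | zero => simp [P312.rep]
    | succ k ih =>
      rw [P312.rep, ih]
      rcases Nat.eq_zero_or_pos (g a) with h | h
      · simp [h, Common.TreeTM.isPos]
      · have h1 := Nat.mod_lt k h
        have h2 := Nat.div_add_mod k (g a)
        by_cases h3 : k % g a + 1 < g a
        · simp only [Common.TreeTM.nlt, h3, decide_true, Bool.true_or, Bool.cond_true]
          have := (Nat.div_mod_unique (a := k + 1) (d := k / g a) (c := k % g a + 1) h).2
            ⟨by omega, h3⟩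
          rw [this.1, this.2]
        · simp only [Common.TreeTM.nlt, h3, decide_false, Common.TreeTM.isPos, h, decide_true,
            Bool.not_true, Bool.or_self, Bool.cond_false]
          have := (Nat.div_mod_unique (a := k + 1) (d := k / g a + 1) (c := 0) h).2
            ⟨by rw [mul_add]; omega, h⟩
          rw [this.1, this.2]
  refine (LS.rep (f := fun a _ (s : ℕ × ℕ) =>
      bif Common.TreeTM.nlt (s.2 + 1) (g a) || !Common.TreeTM.isPos (g a) then (s.1, s.2 + 1)
      else (s.1 + 1, 0)) (i := fun _ => (0, 0)) (by fun_prop) (by fun_prop) hf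
    (S := fun a => 8 * sz (f a) + 3) ((hf.bd.cmul 8).add (Lin.const _)) fun a k hk => ?_).of_eq
    fun a => (key a _).symm
  rw [key, sz_pair]
  have := sz_nat_mono ((Nat.div_le_self k (g a)).trans hk)
  have := sz_nat_mono ((Nat.mod_le k (g a)).trans hk)
  omega

@[fun_prop] theorem LS.div {f g : α → ℕ} (hf : LS f) (hg : LS g) :
    LS fun a => f a / g a := LS.fst (LS.divAux hf hg)

@[fun_prop] theorem LS.mod {f g : α → ℕ} (hf : LS f) (hg : LS g) :
    LS fun a => f a % g a := LS.snd (LS.divAux hf hg)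

@[fun_prop] theorem LS.drop {l : α → List β} {i : α → ℕ} (hl : LS l) (hi : LS i) :
    LS fun a => (l a).drop (i a) := by
  have key : ∀ a k, P312.rep (fun _ (s : List β) => s.tail) (l a) k = (l a).drop k := by
    intro a k
    induction k with
    | zero => rfl
    | succ k ih => rw [P312.rep, ih]; simp
  refine (LS.rep (f := fun _ _ (s : List β) => s.tail) (by fun_prop) hl hi hl.bd
    fun a k _ => ?_).of_eq fun a => (key a _).symm
  rw [key]
  exact sz_drop _ _

@[fun_prop] theorem LS.getD {l : α → List β} {i : α → ℕ} {d : α → β} (hl : LS l) (hi : LS i)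
    (hd : LS d) : LS fun a => (l a).getD (i a) (d a) := by
  refine (LS.headD (LS.drop hl hi) hd).of_eq fun a => ?_
  simp [List.getD_eq_getElem?_getD]

@[fun_prop] theorem LS.length {l : α → List β} (hl : LS l) : LS fun a => (l a).length := by
  refine (LS.foldl_inv (f := fun _ acc (_ : β) => acc + 1) (i := fun _ => 0)
    (by fun_prop) (by fun_prop) hl (S := fun a => 4 * sz (l a) + 1)
    ((hl.bd.cmul _).add (Lin.const _)) (fun _ k s => s = k) (fun _ => rfl)
    (fun _ _ _ _ _ h => by rw [h]) ?_).of_eq fun a => by simp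
  rintro a k s hk rfl
  have := sz_nat_self s
  have := length_le_sz (l a)
  omega

@[fun_prop] theorem LS.take {l : α → List β} {i : α → ℕ} (hl : LS l) (hi : LS i) :
    LS fun a => (l a).take (i a) := by
  have : LS fun a => ((l a).reverse.drop ((l a).length - i a)).reverse := by fun_prop
  refine this.of_eq fun a => ?_
  rw [List.drop_reverse, List.reverse_reverse]
  by_cases h : i a ≤ (l a).length
  · congr 1; omega
  · rw [List.take_of_length_le (by omega), List.take_of_length_le (by omega)]

/-- Equality test. -/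
def neq (a b : ℕ) : Bool := !(nlt a b || nlt b a)

theorem neq_eq (a b : ℕ) : neq a b = decide (a = b) := by
  unfold neq nlt
  rcases lt_trichotomy a b with h | h | h
  · simp [h, h.ne]
  · simp [h]
  · simp [h, h.ne']

@[fun_prop] theorem LS.neq {f g : α → ℕ} (hf : LS f) (hg : LS g) :
    LS fun a => neq (f a) (g a) := by
  unfold P312.neq
  fun_prop

@[fun_prop] theorem LS.min {f g : α → ℕ} (hf : LS f) (hg : LS g) :
    LS fun a => min (f a) (g a) :=
  (LS.cond (LS.nlt hf hg) hf hg).of_eq fun a => by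
    unfold Common.TreeTM.nlt
    by_cases h : f a < g a <;> simp [h] <;> omega

end Vale.Agent.P312
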