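import Vale.Agent.P312.Spec

/-! The main loop over the block width and the offset. -/

namespace Vale.Agent.P312

open Function
open Vale.Agent.Common.TreeTM hiding Ev ev_const st compile drop dup swap mv mvA mvB mvAB flush
  isS mvBody

variable {A : Type}

theorem go_grow {c : Ctx A} {q B : ℕ} [Fact (q + 1).Prime] (h : Fine c q) (hB : EE q ≤ B)
    (hR : sz c.m + sz c.o + 6 * ((4 * sz q + 2) * LL c.m) + 20 ≤ c.R) :
    ∀ k n, n + k = 2 * LL c.m → Go c.code c.M.H c.w c.R B [[13, q, k]]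
      (c.m, c.o, List.replicate n q, []) 0 (stt c.m c.o (fun _ _ => 0 : Reg q)) 0 := by
  have := h.small
  have h0 : 2 * LL c.m ≤ 2 * LL c.m * c.M.NN c.m := Nat.le_mul_of_pos_right _ (Nat.succ_pos _)
  have hs : ∀ n ≤ 2 * LL c.m, sz ((c.m, c.o, List.replicate n q, []) : Rho) ≤ c.R := by
    intro n hn
    have h2 := sz_small (l := List.replicate n q) (K := q) fun x hx =>
      (List.eq_of_mem_replicate hx).le
    have h3 := Nat.mul_le_mul_left (4 * sz q + 2) hn
    rw [List.length_replicate] at h2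
    rw [mul_left_comm] at h3
    simp only [sz_pair, sz_lnil]
    omega
  intro k
  induction k with
  | zero =>
    intro n hn
    refine Go.step _ _ _ _ _ _ ((wt_le (by simp; omega)).trans hB) (hs n (by omega)) ?_
    have : c.M.H (c.code (inSym c.w 0), [13, q, 0], (c.m, c.o, List.replicate n q, [])) =
        ((false, false), [], stt c.m c.o (fun _ _ => 0 : Reg q)) := by
      show ((false, false), Mc.h13 q 0 _) = _
      obtain rfl : n = 2 * LL c.m := hn
      simp [Mc.h13, isPos, upd, stt, vec, tabl_eq, List.range_succ,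
        show LL c.m ≤ 2 * LL c.m by omega]
    rw [this]
    simpa [inMove, dirOf] using Go.nil _ _
  | succ k ih =>
    intro n hn
    refine Go.step _ _ _ _ _ _ ((wt_le (by simp; omega)).trans hB) (hs n (by omega)) ?_
    have : c.M.H (c.code (inSym c.w 0), [13, q, k + 1], (c.m, c.o, List.replicate n q, [])) =
      ((false, false), [[13, q, k]], (c.m, c.o, List.replicate (n + 1) q, [])) := rfl
    rw [this]
    simpa [inMove, dirOf] using ih (n + 1) (by omega)

def Ctx.an (c : Ctx A) : ℕ :=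
  c.M.ans.getD (c.M.rc (LL c.m) (c.M.rr c.m c.o) c.c0 (VV c.m) % c.M.nQ) 0

theorem QQ_spec (M : Mc) (m : ℕ) : (M.QQ m + 1).Prime ∧
    NB m * (2 * LL m * M.NN m) + 1 < M.QQ m ∧ M.QQ m < 2 * (NB m * (2 * LL m * M.NN m) + 2) := by
  obtain ⟨h1, h2, h3⟩ := nextP_spec (d := NB m * (2 * LL m * M.NN m) + 2) (by omega)
  unfold Mc.QQ
  exact ⟨by rwa [Nat.sub_add_cancel (by omega)], by omega, by omega⟩

theorem go_round (c : Ctx A) (l B : ℕ) (hm : 0 < c.m) (ho : c.o < LL c.m)
    (hg : c.M.Good c.m (c.M.rr c.m c.o) c.c0) (hl : c.M.QQ c.m < 2 ^ l)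
    (hR : 1000 * (l * (c.m * c.m)) ≤ c.R) (hB : 50000 * (l * (c.m * c.m)) ≤ B) :
    ∃ r' : Rho, sz r' ≤ c.R ∧ c.M.ansR r' = c.an ∧ r'.1 = c.m ∧ r'.2.1 = c.o ∧
      ∀ r r'' j, sz r ≤ c.R → Go c.code c.M.H c.w c.R B [[14]] r' 0 r'' j →
        Go c.code c.M.H c.w c.R B [[12, c.m, c.o]] r 0 r'' j := by
  obtain ⟨p1, p2, -⟩ := QQ_spec c.M c.m
  generalize hq : c.M.QQ c.m = q at *
  have : Fact (q + 1).Prime := ⟨p1⟩
  have hs := (show Fine { c with R := sz c.m + sz c.o + 6 * ((4 * sz q + 2) * LL c.m) + 20 } q from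
    ⟨hm, p2, hg, sz_stt⟩).small
  dsimp only at hs
  have l0 : 0 < l := by
    rcases l with _ | l
    · omega
    · omega
  have s1 := sz_nat_le hl
  have s2 := sz_nat_le (show c.m < 2 ^ l by omega)
  have s3 := sz_nat_le (show c.o < 2 ^ l by omega)
  have m1 : c.m ≤ c.m * c.m := Nat.le_mul_self _
  have m2 : l ≤ l * c.m := Nat.le_mul_of_pos_right _ hm
  have m3 : l * c.m ≤ l * (c.m * c.m) := Nat.mul_le_mul_left _ m1
  have m4 : c.m * c.m ≤ l * (c.m * c.m) := Nat.le_mul_of_pos_left _ l0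
  have s4 : sz (c.M.NN c.m ^ c.m + q) ≤ 4 * (l * c.m + 1) + 1 := by
    refine sz_nat_le ?_
    have := Nat.pow_le_pow_left (show c.M.NN c.m ≤ 2 ^ l by omega) c.m
    have := Nat.pow_le_pow_right two_pos m2
    rw [pow_succ, pow_mul] at *
    omega
  have hR' : sz c.m + sz c.o + 6 * ((4 * sz q + 2) * LL c.m) + 20 ≤ c.R := by
    have := Nat.mul_le_mul (show 4 * sz q + 2 ≤ 22 * l by omega)
      (show LL c.m ≤ 2 * (c.m * c.m) by unfold LL; omega)
    rw [mul_mul_mul_comm] at this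
    omega
  have h : Fine c q := ⟨hm, p2, hg, fun X => (sz_stt X).trans hR'⟩
  have e1 : EE q ≤ 2200 * l := by unfold EE; omega
  have e2 : EE (c.M.NN c.m ^ c.m + q) ≤ 3800 * (l * c.m) := by unfold EE; omega
  have e3 : (2 * c.m + 1) * (2 * EE (c.M.NN c.m ^ c.m + q) + (c.m + 2) * EE q) ≤
      42600 * (l * (c.m * c.m)) := by
    have := Nat.mul_le_mul (show c.m + 2 ≤ 3 * c.m by omega) e1
    rw [mul_mul_mul_comm, mul_comm c.m] at this
    calc _ ≤ (3 * c.m) * (14200 * (l * c.m)) := Nat.mul_le_mul (by omega) (by omega)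
      _ = _ := by ring
  have hY := (sp_all h (2 * c.m) le_rfl).1 1 (by omega) fun _ _ => 0
  refine ⟨_, h.hR (radd (2 * c.m * c.m % 2) (fun i => (1 : ℕ) * c.Y q (2 * c.m * c.m) i)
    fun _ _ => 0), ?_, rfl, rfl, fun r r'' j hr h1 => ?_⟩
  · have a1 := c.M.Yf_pre c.m (c.M.rr c.m c.o) c.c0 hm (2 * c.m * c.m) 0 (by omega)
    have a2 := hg.Yf_lt hm (le_refl (2 * c.m * c.m)) (c.m * c.m)
    rw [Nat.mul_mod_left, if_neg (by omega), Nat.mul_div_cancel _ hm, add_zero] at a1
    rw [Mc.ansR, rg_stt _ (by omega), Ctx.an, stt_1, VV, ← a1,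
      vec, List.getD_eq_getElem (List.map _ _) _ (by simp [LL]), show 2 * c.m * c.m % 2 = 0 by
        rw [mul_assoc]; omega]
    simp only [radd, update_self, List.getElem_map, List.getElem_range, Mc.Yv, Nat.cast_one,
      one_mul, zero_add]
    rw [ZMod.val_cast_of_lt (by omega)]
  · have h0 : 2 * LL c.m ≤ 2 * LL c.m * c.M.NN c.m := Nat.le_mul_of_pos_right _ (Nat.succ_pos _)
    have hw : wt [[13, q, 2 * LL c.m], [1, 2 * c.m * c.m, 1], [14]] ≤ EE q :=
      wt_le (by simp; omega)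
    simp only [wt_cons, wt_nil] at hw
    refine Go.step _ _ _ _ _ _ ((wt_le (Z := q) (by simp; omega)).trans (by omega)) hr ?_
    have : c.M.H (c.code (inSym c.w 0), [12, c.m, c.o], r) = ((false, false),
      [[13, c.M.QQ c.m, 2 * LL c.m], [1, 2 * c.m * c.m, 1], [14]], (c.m, c.o, [], [])) := rfl
    rw [this, hq, show inMove c.w 0 (dirOf _) = 0 by simp [inMove, dirOf]]
    exact (go_grow h le_rfl hR' _ 0 (zero_add _)).cons (us := [[1, 2 * c.m * c.m, 1], [14]])
      (Go.cons (us := [[14]]) hY h1 (by simp only [wt_cons, wt_nil]; omega))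
      (by simp only [wt_cons, wt_nil]; omega)

theorem go_main (code : Option A → ℕ) (w : List A) (M : Mc) (l m₁ o₁ : ℕ) (P : Prop)
    (hm : 0 < m₁) (ho : o₁ < LL m₁) (hl : ∀ m, 0 < m → m ≤ m₁ → M.QQ m < 2 ^ l)
    (hg : ∀ m o R, 0 < m → o < LL m → M.Good m (M.rr m o) (Ctx.c0 ⟨code, w, M, m, o, R⟩) ∧
      (Ctx.an ⟨code, w, M, m, o, R⟩ ≠ 0 → (Ctx.an ⟨code, w, M, m, o, R⟩ = 2 ↔ P)))
    (h1 : ∀ R, Ctx.an ⟨code, w, M, m₁, o₁, R⟩ ≠ 0) :
    ∃ r, Go code M.H w (1000 * (l * (m₁ * m₁))) (50000 * (l * (m₁ * m₁))) [[12, 1, 0]]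
      (0, 0, [], []) 0 r 0 ∧ sz r ≤ 1000 * (l * (m₁ * m₁)) ∧ (M.ansR r = 2 ↔ P) := by
  have l0 : 0 < l * (m₁ * m₁) := by
    have := ((Nat.le_add_left _ _).trans_lt (QQ_spec M 1).2.1).trans (hl 1 one_pos hm)
    rcases l with _ | l
    · omega
    · positivity
  generalize hR : 1000 * (l * (m₁ * m₁)) = R
  generalize hB : 50000 * (l * (m₁ * m₁)) = B
  have inner : ∀ m, 0 < m → m ≤ m₁ → (m < m₁ → ∀ r : Rho, sz r ≤ R → ∃ r',
      Go code M.H w R B [[12, m + 1, 0]] r 0 r' 0 ∧ sz r' ≤ R ∧ (M.ansR r' = 2 ↔ P)) →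
      ∀ e o, o + e + 1 = LL m → (m = m₁ → o ≤ o₁) → ∀ r : Rho, sz r ≤ R → ∃ r',
      Go code M.H w R B [[12, m, o]] r 0 r' 0 ∧ sz r' ≤ R ∧ (M.ansR r' = 2 ↔ P) := by
    intro m a1 a2 a3 e
    have := Nat.mul_le_mul_left l (Nat.mul_le_mul a2 a2)
    induction e using Nat.strong_induction_on with
    | _ e ih =>
      intro o b1 b2 r hr
      obtain ⟨g1, g2⟩ := hg m o R a1 (by omega)
      obtain ⟨r', c1, c2, c3, c4, c5⟩ := go_round ⟨code, w, M, m, o, R⟩ l B a1
        (show o < LL m by omega) g1 (hl m a1 a2) (by dsimp only; omega) (by dsimp only; omega)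
      dsimp only at c1 c2 c3 c4 c5
      have key : ∀ ts r'', (M.h14 r').1 = ts → Go code M.H w R B ts r' 0 r'' 0 →
          Go code M.H w R B [[12, m, o]] r 0 r'' 0 := by
        rintro _ r'' rfl h
        refine c5 r _ _ hr (Go.step _ _ _ _ _ _ ((show _ ≤ 100 by decide).trans (by omega)) c1 ?_)
        have : M.H (code (inSym w 0), [14], r') = ((false, false), (M.h14 r').1, r') := rfl
        rw [this]
        simpa [inMove, dirOf] using h
      by_cases d1 : Ctx.an ⟨code, w, M, m, o, R⟩ = 0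
      · have d2 : m = m₁ → o ≠ o₁ := by
          rintro rfl rfl
          exact h1 R d1
        rcases e with _ | e
        · obtain ⟨r'', d3, d4⟩ := a3 (by
            by_contra d
            obtain rfl : m = m₁ := by omega
            have := b2 rfl
            have := d2 rfl
            omega) r' c1
          exact ⟨r'', key _ _ (by simp [Mc.h14, c2, d1, c3, c4, isPos, nlt, ← b1]) d3, d4⟩
        · obtain ⟨r'', d3, d4⟩ := ih e (by omega) (o + 1) (by omega) (fun d => by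
            have := b2 d
            have := d2 d
            omega) r' c1
          exact ⟨r'', key _ _ (by simp [Mc.h14, c2, d1, c3, c4, isPos, nlt, ← b1]) d3, d4⟩
      · exact ⟨r', key _ _ (by simp [Mc.h14, c2, isPos, Nat.pos_of_ne_zero d1]) (Go.nil _ _), c1,
          c2 ▸ g2 d1⟩
  have outer : ∀ d m, 0 < m → m + d = m₁ → ∀ r : Rho, sz r ≤ R → ∃ r',
      Go code M.H w R B [[12, m, 0]] r 0 r' 0 ∧ sz r' ≤ R ∧ (M.ansR r' = 2 ↔ P) := by
    intro d
    induction d with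
    | zero =>
      exact fun m a1 a2 => inner m a1 (by omega) (fun h => by omega) (m * m) 0 (by simp [LL])
        fun _ => Nat.zero_le _
    | succ d ih =>
      exact fun m a1 a2 => inner m a1 (by omega) (fun _ => ih (m + 1) (by omega) (by omega))
        (m * m) 0 (by simp [LL]) fun _ => Nat.zero_le _
  exact outer (m₁ - 1) 1 one_pos (by omega) _ ((show _ ≤ 100 by decide).trans (by omega))

end Vale.Agent.P312
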