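import Vale.Agent.P312.Sem

/-! Registers over the prime field. -/

namespace Vale.Agent.P312

open Function Finset
open Vale.Agent.Common.TreeTM hiding Ev ev_const st compile drop dup swap mv mvA mvB mvAB flush
  isS mvBody

variable {q : ℕ} [Fact (q + 1).Prime]

abbrev Reg (q : ℕ) : Type := ℕ → ℕ → ZMod (q + 1)

def vec (L : ℕ) (x : ℕ → ZMod (q + 1)) : List ℕ := (List.range L).map fun i => (x i).val

def stt (m o : ℕ) (X : Reg q) : Rho :=
  (m, o, List.replicate (2 * LL m) q, (List.range 4).map fun j => vec (LL m) (X j))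

def radd (j : ℕ) (v : ℕ → ZMod (q + 1)) (X : Reg q) : Reg q := update X j fun i => X j i + v i

def pt (j : ℕ) (l : ZMod (q + 1)) (v : ℕ → ZMod (q + 1)) (X : Reg q) : Reg q :=
  update X j fun i => l * X j i + v i

variable {m o : ℕ}

@[simp] theorem stt_1 (X : Reg q) : (stt m o X).1 = m := rfl
@[simp] theorem stt_2 (X : Reg q) : (stt m o X).2.1 = o := rfl
@[simp] theorem stt_3 (X : Reg q) : (stt m o X).2.2.1 = List.replicate (2 * LL m) q := rfl
@[simp] theorem qq_stt (X : Reg q) : qq (stt m o X) = q := rfl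

theorem rg_stt (X : Reg q) {j : ℕ} (hj : j < 4) : rg (stt m o X) j = vec (LL m) (X j) := by
  unfold rg stt
  rw [List.getD_eq_getElem _ _ (by simpa using hj)]
  simp

theorem vec_getD {L i : ℕ} (x : ℕ → ZMod (q + 1)) (hi : i < L) :
    ((vec L x).getD i 0 : ZMod (q + 1)) = x i := by
  unfold vec
  rw [List.getD_eq_getElem _ _ (by simpa using hi)]
  simp

theorem upd_stt (X : Reg q) (j : ℕ) (f : ℕ → ℕ) (y : ℕ → ZMod (q + 1))
    (h : ∀ i < LL m, (f i : ZMod (q + 1)) = y i) : upd (stt m o X) j f = stt m o (update X j y) := by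
  unfold upd
  simp only [stt_1, stt_2, stt_3, List.take_replicate, min_eq_left (show LL m ≤ 2 * LL m by omega),
    tabl_eq]
  unfold stt
  congr 3
  apply List.ext_getElem (by simp)
  intro k a1 a2
  simp only [List.getElem_set, List.getElem_map, List.getElem_range]
  split_ifs with e
  · subst e
    rw [update_self]
    refine List.map_congr_left fun i hi => ?_
    rw [← h i (List.mem_range.1 hi), ZMod.val_natCast]
  · rw [update_of_ne (Ne.symm e)]

theorem addU_stt (X : Reg q) {j : ℕ} (hj : j < 4) (f : ℕ → ℕ) (v : ℕ → ZMod (q + 1))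
    (h : ∀ i < LL m, (f i : ZMod (q + 1)) = v i) : addU (stt m o X) j f = stt m o (radd j v X) :=
  upd_stt X j _ _ fun i hi => by rw [Nat.cast_add, rg_stt X hj, vec_getD _ hi, h i hi]

theorem cat_vec (L : ℕ) (x y : ℕ → ZMod (q + 1)) (i : ℕ) (hi : i < 2 * L) :
    ((vec L x ++ vec L y).getD i 0 : ZMod (q + 1)) = cat L x y i := by
  have : (vec L x).length = L := by simp [vec]
  unfold cat
  split_ifs with e
  · rw [List.getD_append _ _ _ _ (by omega), vec_getD _ e]
  · rw [List.getD_append_right _ _ _ _ (by omega), this, vec_getD _ (by omega)]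

theorem ldeN_stt {N : ℕ} (h0 : 0 < N) (h : N ≤ q) (f : List ℕ → ℕ) (X : Reg q) {j k : ℕ}
    (hj : j < 4) (hk : k < 4) :
    (ldeN q N (List.replicate (2 * LL m) q) f (rg (stt m o X) j ++ rg (stt m o X) k) :
      ZMod (q + 1)) = lde N (2 * LL m) f (cat (LL m) (X j) (X k)) := by
  rw [ldeN_eq h0 h, rg_stt X hj, rg_stt X hk]
  exact lde_congr _ _ _ (cat_vec _ _ _)

theorem extN_eq (hm : 0 < m) (φ i : ℕ) (y : ℕ → ZMod (q + 1)) (γ : List ℕ) :
    (extN m φ (vec (LL m) y) γ i : ZMod (q + 1)) = extF m φ y γ i := by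
  have := Mc.mod_mul_le m hm φ
  unfold extN extF nlt isPos
  by_cases e : i < φ % m * m + 1
  · simp only [e, decide_true, Bool.cond_true, if_true]
    by_cases e' : 0 < φ % m
    · simp only [e', decide_true, Bool.cond_true, if_true]
      exact vec_getD _ (by unfold LL; omega)
    · simp only [e', decide_false, Bool.cond_false, if_false]
      exact vec_getD _ (by unfold LL; omega)
  · simp only [e, decide_false, Bool.cond_false, if_false]

theorem radd_radd (j : ℕ) (u v : ℕ → ZMod (q + 1)) (X : Reg q) :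
    radd j v (radd j u X) = radd j (fun i => u i + v i) X := by
  simp [radd, add_assoc]

theorem radd_zero (j : ℕ) (X : Reg q) : radd j (fun _ => 0) X = X := by
  simp [radd]

theorem radd_ne {j k : ℕ} (h : k ≠ j) (v : ℕ → ZMod (q + 1)) (X : Reg q) : radd j v X k = X k :=
  update_of_ne h _ _

theorem pt_ne {j k : ℕ} (h : k ≠ j) (l) (v : ℕ → ZMod (q + 1)) (X : Reg q) :
    pt j l v X k = X k :=
  update_of_ne h _ _

theorem pt_self (j : ℕ) (l) (v : ℕ → ZMod (q + 1)) (X : Reg q) :
    pt j l v X j = fun i => l * X j i + v i :=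
  update_self ..

theorem radd_pt {j k : ℕ} (h : k ≠ j) (l) (u v : ℕ → ZMod (q + 1)) (X : Reg q) :
    radd k u (pt j l v X) = pt j l v (radd k u X) := by
  unfold radd pt
  rw [update_of_ne h, update_of_ne h.symm, update_comm h]

def EE (Z : ℕ) : ℕ := 100 * (4 * sz Z + 2)

theorem wt_le {Z : ℕ} {l : List (List ℕ)}
    (h : l.length ≤ 10 ∧ ∀ t ∈ l, t.length ≤ 8 ∧ ∀ x ∈ t, x ≤ Z) : wt l ≤ EE Z := by
  have : wt l ≤ l.length * (10 * (4 * sz Z + 2)) := by
    replace h := h.2
    induction l with
    | nil => simp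
    | cons t l ih =>
      have h1 := ih fun t ht => h t (by simp [ht])
      obtain ⟨h2, h3⟩ := h t (by simp)
      have h4 := sz_small h3
      have h5 := Nat.mul_le_mul_left (4 * sz Z + 2) h2
      rw [wt_cons, List.length_cons, Nat.succ_mul]
      omega
  have := Nat.mul_le_mul_right (10 * (4 * sz Z + 2)) h.1
  unfold EE
  omega

theorem sz_stt (X : Reg q) : sz (stt m o X) ≤ sz m + sz o + 6 * ((4 * sz q + 2) * LL m) + 20 := by
  have h1 : ∀ j, sz (vec (LL m) (X j)) ≤ (4 * sz q + 2) * LL m + 1 := fun j => by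
    simpa [vec] using sz_small (l := vec (LL m) (X j)) (K := q) fun x hx => by
      obtain ⟨i, -, rfl⟩ := List.mem_map.1 hx
      exact Nat.le_of_lt_succ (ZMod.val_lt _)
  have h2 := sz_small (l := List.replicate (2 * LL m) q) (K := q) fun x hx =>
    (List.eq_of_mem_replicate hx).le
  rw [List.length_replicate, mul_left_comm] at h2
  have := h1 0
  have := h1 1
  have := h1 2
  have := h1 3
  simp only [stt, sz_pair, List.range_succ, List.range_zero, List.nil_append, List.cons_append,
    List.map_cons, List.map_nil, sz_lcons, sz_lnil]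
  omega

end Vale.Agent.P312
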