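import Vale.Agent.P312.Alg

/-! The values computed by the simulation. -/

namespace Vale.Agent.P312

open Function Finset
open Vale.Agent.Common.TreeTM hiding Ev ev_const st compile drop dup swap mv mvA mvB mvAB flush
  isS mvBody

theorem succ_divmod {m : ℕ} (hm : 0 < m) (x : ℕ) :
    ((x + 1) % m = 0 ∧ x % m + 1 = m ∧ (x + 1) / m = x / m + 1) ∨
      ((x + 1) % m = x % m + 1 ∧ (x + 1) / m = x / m) := by
  have h1 := Nat.mod_lt x hm
  have h2 := Nat.div_add_mod x m
  by_cases h3 : x % m + 1 < m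
  · have := (Nat.div_mod_unique (a := x + 1) (d := x / m) (c := x % m + 1) hm).2 ⟨by omega, h3⟩
    exact Or.inr ⟨this.2, this.1⟩
  · have := (Nat.div_mod_unique (a := x + 1) (d := x / m + 1) (c := 0) hm).2
      ⟨by rw [mul_add]; omega, hm⟩
    exact Or.inl ⟨this.2, by omega, this.1⟩

def cat {R : Type} (L : ℕ) (y z : ℕ → R) (i : ℕ) : R := if i < L then y i else z (i - L)

def extF {q : ℕ} (m φ : ℕ) (y : ℕ → ZMod (q + 1)) (γ : List ℕ) (i : ℕ) : ZMod (q + 1) :=
  if i < φ % m * m + 1 then y (if 0 < φ % m then i else m * m)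
  else (γ.getD (i - (φ % m * m + 1)) 0 : ℕ)

namespace Mc

variable (M : Mc) (m r₀ : ℕ) (c₀ : ℕ → List ℕ)

def Yf : ℕ → ℕ → ℕ
  | 0, i => if i = m * m then r₀ else 0
  | φ + 1, i => if i ≤ (φ % m + 1) * m then M.rc (LL m) r₀ c₀ (φ / m * (m * m) + i) else 0

def Yl (φ : ℕ) : List ℕ := (List.range (LL m)).map (M.Yf m r₀ c₀ φ)

def Good : Prop := ∀ i ≤ VV m, M.rc (LL m) r₀ c₀ i < M.NN m ∧
  M.blk (LL m) (M.rc (LL m) r₀ c₀ i) < NB m ∧
  ∀ J, (M.ct (LL m) r₀ c₀ i J).length = LL m ∧ ∀ x ∈ M.ct (LL m) r₀ c₀ i J, x < M.NN m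

theorem Yf_pre (hm : 0 < m) (φ i : ℕ) (hi : i < φ % m * m + 1) :
    M.Yf m r₀ c₀ φ (if 0 < φ % m then i else m * m) =
      M.rc (LL m) r₀ c₀ (φ / m * (m * m) + i) := by
  cases φ with
  | zero =>
    obtain rfl : i = 0 := by simpa using hi
    simp [Yf, rc, proc]
  | succ x =>
    rcases succ_divmod hm x with ⟨h1, h2, h3⟩ | ⟨h1, h2⟩
    · obtain rfl : i = 0 := by simpa [h1] using hi
      simp [Yf, h1, h2, h3, add_mul]
    · rw [h1] at hi
      simp [Yf, h1, h2, Nat.le_of_lt_succ hi]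

theorem mod_mul_le (hm : 0 < m) (φ : ℕ) : φ % m * m + m ≤ m * m := by
  have := Nat.mul_le_mul_right m (Nat.succ_le_of_lt (Nat.mod_lt φ hm))
  rwa [Nat.succ_mul] at this

theorem pre_true (hm : 0 < m) (φ : ℕ) (C : List ℕ) :
    pre m φ (M.Yl m r₀ c₀ φ ++ C) = M.recs (LL m) r₀ c₀ (φ / m * (m * m)) (φ % m * m + 1) := by
  have h1 := mod_mul_le m hm φ
  have h2 := M.Yf_pre m r₀ c₀ hm φ
  unfold pre
  by_cases h : 0 < φ % m
  · simp only [isPos, h, decide_true, Bool.cond_true, if_true] at h2 ⊢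
    apply List.ext_getElem (by simp [Yl, recs, LL]; omega)
    intro i a1 a2
    rw [length_recs] at a2
    rw [List.getElem_take, List.getElem_append_left (by simp [Yl, LL]; omega)]
    simp [Yl, recs, h2 i a2]
  · obtain h : φ % m = 0 := by omega
    simp only [isPos, h, lt_self_iff_false, decide_false, Bool.cond_false, if_false, zero_mul,
      zero_add] at h2 ⊢
    have := h2 0 one_pos
    simp [Yl, LL, List.range_succ, recs, this]

theorem idx_le (φ : ℕ) (h : φ < 2 * m * m) : φ / m * (m * m) + m * m ≤ VV m := by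
  have := Nat.mul_le_mul_right (m * m) (Nat.succ_le_of_lt
    (Nat.div_lt_of_lt_mul (show φ < m * (2 * m) by rwa [mul_comm])))
  rwa [Nat.succ_mul] at this

variable {M m r₀ c₀}

theorem Good.Yf_lt (h : M.Good m r₀ c₀) (hm : 0 < m) {φ : ℕ} (hφ : φ ≤ 2 * m * m) (i : ℕ) :
    M.Yf m r₀ c₀ φ i < M.NN m := by
  have h0 : 0 < M.NN m := Nat.succ_pos _
  cases φ with
  | zero =>
    rw [Yf]
    split_ifs
    · exact (h 0 (Nat.zero_le _)).1
    · exact h0
  | succ x =>
    rw [Yf]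
    split_ifs with e
    · have := idx_le m x hφ
      have := mod_mul_le m hm x
      exact (h _ (by rw [add_mul] at e; omega)).1
    · exact h0

variable (M m r₀ c₀) (q : ℕ) [Fact (q + 1).Prime]

def Yv (φ i : ℕ) : ZMod (q + 1) := M.Yf m r₀ c₀ φ i

def Cv (I J i : ℕ) : ZMod (q + 1) := (M.ct (LL m) r₀ c₀ (I * (m * m)) J).getD i 0

def Gh (φ : ℕ) (y : ℕ → ZMod (q + 1)) (i : ℕ) : ZMod (q + 1) :=
  ∑ u ∈ range (M.NN m ^ m), (∏ J ∈ range (NB m), lde (M.NN m) (2 * LL m)
    (M.chk m φ J (dig (M.NN m) m u)) (cat (LL m) y (M.Cv m r₀ c₀ q (φ / m) J))) *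
      extF m φ y (dig (M.NN m) m u) i

variable {M m r₀ c₀ q}

theorem Good.lde_true (h : M.Good m r₀ c₀) (hm : 0 < m) (hN : M.NN m ≤ q) {φ I : ℕ}
    (hφ : φ ≤ 2 * m * m) (hI : I * (m * m) ≤ VV m) (J : ℕ) (f : List ℕ → ℕ) :
    lde (M.NN m) (2 * LL m) f (cat (LL m) (M.Yv m r₀ c₀ q φ) (M.Cv m r₀ c₀ q I J)) =
      f (M.Yl m r₀ c₀ φ ++ M.ct (LL m) r₀ c₀ (I * (m * m)) J) := by
  obtain ⟨h1, h2⟩ := (h _ hI).2.2 J
  have h3 : (M.Yl m r₀ c₀ φ).length = LL m := by simp [Yl]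
  refine lde_eq hN f _ (by rw [List.length_append, h1, h3, two_mul]) (fun x hx => ?_) fun i _ => ?_
  · rcases List.mem_append.1 hx with hx | hx
    · obtain ⟨i, -, rfl⟩ := List.mem_map.1 hx
      exact h.Yf_lt hm hφ i
    · exact h2 x hx
  · unfold cat
    split_ifs with e
    · rw [List.getD_append _ _ _ _ (by omega), List.getD_eq_getElem _ _ (by omega)]
      simp [Yl, Yv]
    · rw [List.getD_append_right _ _ _ _ (by omega), h3, Cv]

theorem Good.Gh_true (h : M.Good m r₀ c₀) (hm : 0 < m) (hN : M.NN m ≤ q) {φ : ℕ}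
    (hφ : φ < 2 * m * m) (i : ℕ) :
    M.Gh m r₀ c₀ q φ (M.Yv m r₀ c₀ q φ) i = M.Yv m r₀ c₀ q (φ + 1) i := by
  have h1 := idx_le m φ hφ
  have h2 := mod_mul_le m hm φ
  have h3 : (M.Yl m r₀ c₀ φ).length = LL m := by simp [Yl]
  unfold Gh
  simp only [h.lde_true hm hN hφ.le (show φ / m * (m * m) ≤ VV m by omega), chk, pre_true _ _ _ _ hm,
    List.drop_left' h3]
  rw [sum_dig (fun γ => (∏ J ∈ range (NB m), ((bif (M.runBlock (LL m) J
      (M.ct (LL m) r₀ c₀ (φ / m * (m * m)) J)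
      (M.recs (LL m) r₀ c₀ (φ / m * (m * m)) (φ % m * m + 1) ++ γ)).2.1 then 1 else 0 : ℕ) :
      ZMod (q + 1))) * extF m φ (M.Yv m r₀ c₀ q φ) γ i)
    (M.recs (LL m) r₀ c₀ (φ / m * (m * m) + (φ % m * m + 1)) m) (length_recs ..)]
  · rw [← recs_add, add_right_comm]
    simp only [run_true, Bool.cond_true, Nat.cast_one, prod_const_one, one_mul]
    unfold extF Yv
    split_ifs with e1
    · have := M.Yf_pre m r₀ c₀ hm φ i e1
      simp only [*, if_true] at this
      rw [this, Yf, if_pos (by rw [add_mul]; omega)]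
    · have := M.Yf_pre m r₀ c₀ hm φ i e1
      simp only [*, if_false] at this
      rw [this, Yf, if_pos (by rw [add_mul]; omega)]
    · rw [Yf]
      split_ifs with e2
      · rw [add_mul] at e2
        rw [List.getD_eq_getElem _ _ (by rw [length_recs]; omega)]
        simp only [recs, List.getElem_map, List.getElem_range', one_mul]
        congr 2
        omega
      · rw [add_mul] at e2
        rw [List.getD_eq_default _ _ (by rw [length_recs]; omega)]
  · intro x hx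
    simp only [recs, List.mem_map, List.mem_range'_1] at hx
    obtain ⟨j, hj, rfl⟩ := hx
    exact (h j (by omega)).1
  · intro u hu
    by_contra hcon
    apply hu
    have := M.run_unique (LL m) r₀ c₀ (NB m) (φ / m * (m * m)) (dig (M.NN m) m u) (φ % m * m)
      (fun j hj => (h j (by rw [length_dig] at hj; omega)).2.1) fun J hJ => by
        by_contra hf
        apply hcon
        rw [prod_eq_zero (mem_range.2 hJ), zero_mul]
        simp [Bool.eq_false_iff.2 hf]
    rwa [length_dig, add_assoc] at this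

theorem Good.nxt_true (h : M.Good m r₀ c₀) (hm : 0 < m) (hN : M.NN m ≤ q) {I : ℕ}
    (hI : I < 2 * m) (J i : ℕ) :
    lde (M.NN m) (2 * LL m) (M.nxt m J i)
      (cat (LL m) (M.Yv m r₀ c₀ q ((I + 1) * m)) (M.Cv m r₀ c₀ q I J)) =
      M.Cv m r₀ c₀ q (I + 1) J i := by
  have h3 : (M.Yl m r₀ c₀ ((I + 1) * m)).length = LL m := by simp [Yl]
  rw [h.lde_true hm hN (Nat.mul_le_mul_right _ hI) (Nat.mul_le_mul_right _ hI.le), nxt,
    List.drop_left' h3, List.take_left' h3]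
  have : M.Yl m r₀ c₀ ((I + 1) * m) = M.recs (LL m) r₀ c₀ (I * (m * m)) (m * m + 1) := by
    obtain ⟨x, hx⟩ : ∃ x, (I + 1) * m = x + 1 := ⟨(I + 1) * m - 1, by
      have := Nat.mul_pos (Nat.add_one_pos I) hm
      omega⟩
    have e1 : (x + 1) % m = 0 := by rw [← hx]; simp
    have e2 : (x + 1) / m = I + 1 := by rw [← hx]; simp [hm]
    obtain ⟨-, e3, e4⟩ := (succ_divmod hm x).resolve_right (by omega)
    apply List.ext_getElem (by simp [Yl, recs, LL])
    intro j a1 a2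
    rw [length_recs] at a2
    simp [Yl, recs, hx, Yf, e3, show x / m = I by omega, Nat.le_of_lt_succ a2]
  rw [this, run_true, Cv, add_mul, one_mul]

theorem PD_cat (N k L : ℕ) (f : List ℕ → ℕ) (a b c d : ℕ → ZMod (q + 1)) :
    PD (k * N) fun x => lde N k f (cat L (fun i => x * a i + b i) fun i => x * c i + d i) := by
  convert PD.lde N k f (cat L a c) (cat L b d) using 3
  funext i
  unfold cat
  split_ifs <;> rfl

theorem PD_Gh (φ i : ℕ) (a b : ℕ → ZMod (q + 1)) : PD (NB m * (2 * LL m * M.NN m) + 1)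
    fun x => M.Gh m r₀ c₀ q φ (fun i => x * a i + b i) i := by
  refine PD.sum _ fun u => PD.mul (PD.prod _ fun J => ?_) ?_
  · simpa using PD_cat (M.NN m) (2 * LL m) (LL m) _ a b 0 (M.Cv m r₀ c₀ q (φ / m) J)
  · unfold extF
    by_cases e : i < φ % m * m + 1
    · simpa only [e, if_true] using PD.lin _ _
    · simpa only [e, if_false] using PD.const _ _

end Mc

end Vale.Agent.P312
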