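import Vale.Agent.P312.Reg

/-! Correctness and stack height of the recursive procedures. -/

namespace Vale.Agent.P312

open Function Finset
open Vale.Agent.Common.TreeTM hiding Ev ev_const st compile drop dup swap mv mvA mvB mvAB flush
  isS mvBody

variable {A : Type}

structure Ctx (A : Type) where
  code : Option A → ℕ
  w : List A
  M : Mc
  m : ℕ
  o : ℕ
  R : ℕ

def Ctx.c0 (c : Ctx A) (J : ℕ) : List ℕ :=
  (List.range (LL c.m)).map fun j => c.code (inSym c.w (J * LL c.m + j + 1 - DD c.m c.o))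

structure Fine (c : Ctx A) (q : ℕ) : Prop where
  hm : 0 < c.m
  hd : NB c.m * (2 * LL c.m * c.M.NN c.m) + 1 < q
  good : c.M.Good c.m (c.M.rr c.m c.o) c.c0
  hR : ∀ X : Reg q, sz (stt c.m c.o X) ≤ c.R

variable {c : Ctx A} {q : ℕ} [Fact (q + 1).Prime]

def GG (c : Ctx A) (B : ℕ) (ts : List (List ℕ)) (X Y : Reg q) : Prop :=
  Go c.code c.M.H c.w c.R B ts (stt c.m c.o X) 0 (stt c.m c.o Y) 0

abbrev Ctx.Y (c : Ctx A) (q φ : ℕ) [Fact (q + 1).Prime] : ℕ → ZMod (q + 1) :=
  c.M.Yv c.m (c.M.rr c.m c.o) c.c0 q φ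
abbrev Ctx.C (c : Ctx A) (q I J : ℕ) [Fact (q + 1).Prime] : ℕ → ZMod (q + 1) :=
  c.M.Cv c.m (c.M.rr c.m c.o) c.c0 q I J

def Sp (c : Ctx A) (B : ℕ) (t : ℕ → List ℕ) (j : ℕ) (v : ℕ → ZMod (q + 1)) : Prop :=
  ∀ s ≤ q, ∀ X : Reg q, GG c B [t s] X (radd j (fun i => s * v i) X)

omit [Fact (q + 1).Prime] in
theorem Fine.small (h : Fine c q) : c.M.NN c.m ≤ q ∧ NB c.m * LL c.m + LL c.m ≤ q ∧
    2 * c.m * c.m ≤ q ∧ 14 ≤ q ∧ NB c.m ≤ q ∧ 2 * c.m ≤ q ∧ 2 * LL c.m * c.M.NN c.m < q := by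
  have h1 := h.hm
  have h2 := h.hd
  have h3 : 0 < c.M.NN c.m := Nat.succ_pos _
  generalize c.M.NN c.m = N at *
  generalize c.m = m at *
  have h4 : m ≤ m * m := Nat.le_mul_self m
  have h5 : m * m ≤ m * (m * m) := Nat.le_mul_of_pos_left _ h1
  have h6 : NB m = 4 * (m * (m * m)) + 1 := by unfold NB VV; ring
  have h7 : LL m = m * m + 1 := rfl
  have h8 : 2 * LL m ≤ 2 * LL m * N := Nat.le_mul_of_pos_right _ h3
  have h9 : N ≤ 2 * LL m * N := Nat.le_mul_of_pos_left _ (by omega)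
  have h10 := Nat.mul_le_mul_left (NB m) h8
  have h11 : 5 * (2 * LL m * N) ≤ NB m * (2 * LL m * N) := Nat.mul_le_mul_right _ (by omega)
  have h12 : LL m ≤ NB m * LL m := Nat.le_mul_of_pos_left _ (by omega)
  have h13 : NB m ≤ NB m * LL m := Nat.le_mul_of_pos_right _ (by omega)
  rw [mul_left_comm] at h10
  rw [mul_assoc 2 m m]
  omega

theorem GG.step (h : Fine c q) {B t us l} {X X' Y : Reg q} (h1 : wt (t :: us) ≤ B)
    (h2 : c.M.H (c.code (inSym c.w 0), t, stt c.m c.o X) = ((false, false), l, stt c.m c.o X'))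
    (h3 : GG c B (l ++ us) X' Y) : GG c B (t :: us) X Y := by
  refine Go.step _ _ _ _ _ _ h1 (h.hR _) ?_
  rw [h2]
  simpa [inMove, dirOf, GG] using h3

theorem GG.one (h : Fine c q) {B t l} {X X' Y : Reg q} (h1 : wt [t] ≤ B)
    (h2 : c.M.H (c.code (inSym c.w 0), t, stt c.m c.o X) = ((false, false), l, stt c.m c.o X'))
    (h3 : GG c B l X' Y) : GG c B [t] X Y := GG.step h h1 h2 (by simpa using h3)

theorem GG.psh (h : Fine c q) {B E t l} {X Y : Reg q} (_ : wt l ≤ E) (h1 : wt [t] ≤ B)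
    (h2 : c.M.H (c.code (inSym c.w 0), t, stt c.m c.o X) = ((false, false), l, stt c.m c.o X))
    (h3 : GG c B l X Y) : GG c B [t] X Y := GG.one h h1 h2 h3

theorem GG.nil {B} (X : Reg q) : GG c B [] X X := Go.nil _ _

theorem GG.cons {B B' t us} {X Y Z : Reg q} (h : GG c B [t] X Y) (hB : B + wt us ≤ B')
    (h' : GG c B' us Y Z) : GG c B' (t :: us) X Z := Go.cons h h' hB

theorem GG.sc (h : Fine c q) {B j l us} {X Y : Reg q} (hj : j < 4) (h1 : wt ([0, j, l] :: us) ≤ B)
    (h2 : GG c B us (pt j l (fun _ => 0) X) Y) : GG c B ([0, j, l] :: us) X Y := by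
  refine GG.step h (l := []) h1 ?_ h2
  show ((false, false), Mc.h0 j l _) = _
  rw [Mc.h0, upd_stt X j _ _ fun i hi => ?_]
  · rfl
  · rw [Nat.cast_mul, rg_stt X hj, vec_getD _ hi, add_zero]

theorem GG.opn (h : Fine c q) {B B₀ j l us t v} {X Y : Reg q} (hj : j < 4) (hs : Sp c B₀ t j v)
    (h1 : B₀ + wt ([0, j, l] :: t 1 :: us) ≤ B) (h2 : GG c B us (pt j l v X) Y) :
    GG c B ([0, j, l] :: t 1 :: us) X Y := by
  refine GG.sc h hj (by omega) ((hs 1 (by have := h.small; omega) _).cons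
    (by simp only [wt_cons] at h1; omega) ?_)
  convert h2 using 1
  simp [radd, pt]

theorem GG.cls (h : Fine c q) {B B₀ j k us t v} {X Y : Reg q} (hj : j < 4) (hk : k < q)
    (hs : Sp c B₀ t j v) (h1 : B₀ + wt (t q :: [0, j, invN q (k + 1)] :: us) ≤ B)
    (h2 : GG c B us X Y) :
    GG c B (t q :: [0, j, invN q (k + 1)] :: us) (pt j (k + 1 : ℕ) v X) Y := by
  refine (hs q le_rfl _).cons (by simp only [wt_cons] at h1 ⊢; omega)
    (GG.sc h hj (by simp only [wt_cons] at h1 ⊢; omega) ?_)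
  convert h2 using 1
  have := mul_pow_eq (cast_ne (q := q) (a := k + 1) (b := 0) hk (Nat.zero_le _) (by omega) ∘
    fun e => e.trans Nat.cast_zero.symm)
  simp only [radd, pt, update_self, update_idem, invN_eq, cast_q]
  refine update_eq_self_iff.2 (funext fun i => ?_)
  linear_combination X j i * this

theorem GG.loop {B j} (n : ℕ) (T : ℕ → List ℕ) (v : ℕ → ℕ → ZMod (q + 1)) {X : Reg q}
    {v' : ℕ → ZMod (q + 1)} (hv : ∀ i, v' i = ∑ k ∈ range n, v k i) (h0 : ∀ Y : Reg q, GG c B [T n] Y Y)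
    (hs : ∀ k < n, ∀ z Y, GG c B [T (k + 1)] (radd j (v k) (radd j z X)) Y →
      GG c B [T k] (radd j z X) Y) :
    GG c B [T 0] X (radd j v' X) := by
  rw [funext hv]
  have : ∀ d k, k + d = n → GG c B [T k] (radd j (fun i => ∑ k ∈ range k, v k i) X)
      (radd j (fun i => ∑ k ∈ range n, v k i) X) := by
    intro d
    induction d with
    | zero => rintro k rfl; exact h0 _
    | succ d ih =>
      intro k hk
      refine hs k (by omega) _ _ ?_
      rw [radd_radd]
      simpa only [sum_range_succ] using ih (k + 1) (by omega)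
  simpa [radd_zero] using this n 0 (by omega)

theorem sp_Y0 (h : Fine c q) : Sp c (EE q) (fun s => [1, 0, s]) 0 (c.Y q 0) := by
  intro s hs X
  have := h.small
  refine GG.one h (l := []) (wt_le (by simp; omega)) ?_ (GG.nil _)
  show ((false, false), c.M.h1 0 s _) = _
  rw [Mc.h1, addU_stt X (by omega) _ _ fun i hi => ?_]
  · rfl
  · by_cases e : i = c.m * c.m <;> simp [neq_eq, e, Mc.Yv, Mc.Yf]

theorem go_mv (d : ℕ) {R B : ℕ} {r : Rho} (hr : sz r ≤ R) (hq : 14 ≤ q) (hd : d ≤ 1)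
    (hB : EE q ≤ B) : ∀ k ≤ q, ∀ i ≤ c.w.length + 1, Go c.code c.M.H c.w R B [[10, d, k]] r i r
      (if d = 0 then i - k else min (c.w.length + 1) (i + k)) := by
  intro k
  induction k with
  | zero =>
    intro _ i hi
    refine Go.step _ _ _ _ _ _ ((wt_le (by simp; omega)).trans hB) hr ?_
    have : c.M.H (c.code (inSym c.w i), [10, d, 0], r) = ((false, false), [], r) := rfl
    rw [this, show inMove c.w i (dirOf ((false, false), ([] : List (List ℕ)), r).1) = i by
      simp [inMove, dirOf, hi], Nat.sub_zero, min_eq_right (show i + 0 ≤ _ from hi),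
      Nat.add_zero, ite_self]
    exact Go.nil _ _
  | succ k ih =>
    intro hk i hi
    refine Go.step _ _ _ _ _ _ ((wt_le (by simp; omega)).trans hB) hr ?_
    have : c.M.H (c.code (inSym c.w i), [10, d, k + 1], r) =
      ((isPos d, true), [[10, d, k]], r) := rfl
    rw [this, show (if d = 0 then i - (k + 1) else min (c.w.length + 1) (i + (k + 1))) =
      if d = 0 then inMove c.w i (dirOf (isPos d, true)) - k else
        min (c.w.length + 1) (inMove c.w i (dirOf (isPos d, true)) + k) by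
      obtain rfl | rfl : d = 0 ∨ d = 1 := by omega
      all_goals
        simp [inMove, dirOf, isPos]
        omega]
    exact ih (by omega) _ (min_le_left _ _)

theorem sp_C0 (h : Fine c q) {J : ℕ} (hJ : J < NB c.m) :
    Sp c (2 * EE q) (fun s => [6, 0, J, s]) 2 (c.C q 0 J) := by
  intro s hs X
  have := h.small
  refine GG.one h (l := [[9, J, s, 0]]) ((wt_le (Z := q) (by simp; omega)).trans (by omega)) rfl ?_
  have hJ' := Nat.mul_le_mul_right (LL c.m) (Nat.succ_le_of_lt hJ)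
  rw [Nat.succ_mul] at hJ'
  refine GG.loop (LL c.m) (fun j => [9, J, s, j])
    (fun j i => if i = j then (s : ZMod (q + 1)) * c.C q 0 J i else 0) (fun i => ?_) (fun Y => ?_)
    fun k hk z Y hY => ?_
  · by_cases e : i < LL c.m
    · simp [e]
    · simp [e, Mc.Cv, Mc.ct, Mc.proc, Ctx.c0]
  · refine GG.one h (l := []) ((wt_le (Z := q) (by simp; omega)).trans (by omega)) ?_ (GG.nil _)
    show ((false, false), Mc.h9 J s _ _) = _
    simp [Mc.h9, nlt]
  · set y := J * LL c.m + k + 1 - DD c.m c.o with hy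
    have hw : wt [[10, 1, y], [11, s, k], [10, 0, y], [9, J, s, k + 1]] ≤ EE q :=
      wt_le (by simp; omega)
    refine GG.psh h hw ((wt_le (Z := q) (by simp; omega)).trans (by omega)) ?_ ?_
    · show ((false, false), Mc.h9 J s _ _) = _
      simp [Mc.h9, nlt, hk, hy]
    simp only [wt_cons, wt_nil] at hw
    refine (go_mv (q := q) 1 (h.hR _) (by omega) le_rfl le_rfl y (by omega) 0 (by omega)).cons ?_
      (by simp only [wt_cons, wt_nil]; omega)
    refine Go.step _ _ _ _ _ _ (by simp only [wt_cons, wt_nil]; omega) (h.hR _) ?_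
    have e1 : ∀ x, c.M.H (x, [11, s, k], stt c.m c.o (radd 2 z X)) =
      ((false, false), Mc.h11 x s k (stt c.m c.o (radd 2 z X))) := fun _ => rfl
    rw [e1, Mc.h11, addU_stt _ (by omega) _ 
      (fun i => if i = k then (s : ZMod (q + 1)) * c.C q 0 J i else 0) fun i hi => ?_]
    · refine Go.cons (j := 0) ?_ hY (B := EE q) (by simp only [wt_cons, wt_nil]; omega)
      convert go_mv (c := c) (q := q) 0 (h.hR _) (by omega) (by omega) le_rfl y (by omega) _
        (show inMove _ _ _ ≤ _ from min_le_left _ _) using 1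
      simp [dirOf, inMove]
    · by_cases e : i = k
      · subst e
        have : inSym c.w (min (c.w.length + 1) y) = inSym c.w y := by
          by_cases e : y ≤ c.w.length + 1
          · rw [min_eq_right e]
          · rw [min_eq_left (by omega), inSym, inSym, if_neg (by omega), if_neg (by omega),
              List.getElem?_eq_none (by omega), List.getElem?_eq_none (by omega)]
        simp [neq_eq, Mc.Cv, Mc.ct, Mc.proc, Ctx.c0, hi, this, ← hy]
      · simp [neq_eq, e]

theorem GG.up (h : Fine c q) {B I J s us} {X Y : Reg q} (h1 : wt ([8, I, J, s] :: us) ≤ B)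
    (h2 : GG c B us (radd (2 + (I + 1) % 2) (fun i => -(s : ZMod (q + 1)) * lde (c.M.NN c.m)
      (2 * LL c.m) (c.M.nxt c.m J i) (cat (LL c.m) (X ((I + 1) * c.m % 2)) (X (2 + I % 2)))) X) Y) :
    GG c B ([8, I, J, s] :: us) X Y := by
  refine GG.step h (l := []) h1 ?_ h2
  show ((false, false), c.M.h8 I J s _) = _
  rw [Mc.h8, addU_stt _ (by omega) _ _ fun i hi => ?_]
  simp only [qq_stt, stt_1, stt_3, Nat.cast_mul, cast_q]
  rw [ldeN_stt (show 0 < c.M.NN c.m from Nat.succ_pos _) h.small.1 _ _ (by omega) (by omega),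
    neg_one_mul]

theorem sp_C (h : Fine c q) {B I J : ℕ} (hI : I < 2 * c.m) (hJ : J < NB c.m)
    (hY : Sp c B (fun s => [1, (I + 1) * c.m, s]) ((I + 1) * c.m % 2) (c.Y q ((I + 1) * c.m)))
    (hC : Sp c B (fun s => [6, I, J, s]) (2 + I % 2) (c.C q I J)) :
    Sp c (B + EE q) (fun s => [6, I + 1, J, s]) (2 + (I + 1) % 2) (c.C q (I + 1) J) := by
  intro s hs X
  have := h.small
  have hI' := Nat.mul_le_mul_right c.m (Nat.succ_le_of_lt hI)
  rw [Nat.succ_eq_add_one] at hI'
  refine GG.one h (l := [[7, I, J, s, 0]]) ((wt_le (Z := q) (by simp; omega)).trans (by omega))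
    rfl ?_
  set j := (I + 1) * c.m % 2 with hj
  have hj2 : j < 2 := Nat.mod_lt _ (by omega)
  refine GG.loop q (fun k => [7, I, J, s, k])
    (fun k i => -(s : ZMod (q + 1)) * lde (c.M.NN c.m) (2 * LL c.m) (c.M.nxt c.m J i) (cat (LL c.m)
      (fun i => ((k + 1 : ℕ) : ZMod (q + 1)) * X j i + c.Y q ((I + 1) * c.m) i)
      fun i => ((k + 1 : ℕ) : ZMod (q + 1)) * X (2 + I % 2) i + c.C q I J i)) (fun i => ?_) (fun Y => ?_)
      fun k hk z Y hZ => ?_
  · rw [← mul_sum, (Mc.PD_cat ..).zero (by omega)]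
    simp only [zero_mul, zero_add]
    rw [h.good.nxt_true h.hm (by omega) hI]
    ring
  · refine GG.one h (l := []) ((wt_le (Z := q) (by simp; omega)).trans (by omega)) ?_ (GG.nil _)
    show ((false, false), Mc.h7 I J s _ _) = _
    simp [Mc.h7, nlt]
  · have := invN_le q (k + 1)
    have hw : wt [[0, j, k + 1], [1, (I + 1) * c.m, 1], [0, 2 + I % 2, k + 1], [6, I, J, 1],
        [8, I, J, s], [6, I, J, q], [0, 2 + I % 2, invN q (k + 1)], [1, (I + 1) * c.m, q],
        [0, j, invN q (k + 1)], [7, I, J, s, k + 1]] ≤ EE q := wt_le (by simp; omega)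
    refine GG.psh h hw ((wt_le (Z := q) (by simp; omega)).trans (by omega))
      (by show ((false, false), Mc.h7 I J s _ _) = _; simp [Mc.h7, nlt, hk, hj]) ?_
    refine GG.opn h (by omega) hY (by omega) ?_
    simp only [wt_cons, wt_nil] at hw
    refine GG.opn h (by omega) hC (by simp only [wt_cons, wt_nil]; omega) ?_
    refine GG.up h (by simp only [wt_cons, wt_nil]; omega) ?_
    rw [radd_pt (by omega), radd_pt (by omega)]
    refine GG.cls h (by omega) hk hC (by simp only [wt_cons, wt_nil]; omega) ?_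
    refine GG.cls h (by omega) hk hY (by simp only [wt_cons, wt_nil]; omega) ?_
    simpa only [← hj, pt_self, pt_ne (show j ≠ 2 + I % 2 by omega),
      pt_ne (show 2 + I % 2 ≠ j by omega), radd_ne (show j ≠ 2 + (I + 1) % 2 by omega),
      radd_ne (show 2 + I % 2 ≠ 2 + (I + 1) % 2 by omega)] using hZ

section Y

variable {B₀ B φ s u : ℕ}

theorem go_k (h : Fine c q) (hφ : φ < 2 * c.m * c.m) (hs : s ≤ q) (hu : u ≤ c.M.NN c.m ^ c.m)
    {J a : ℕ} (hJ : J < NB c.m) (ha : a ≤ q)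
    (hC : Sp c B₀ (fun s => [6, φ / c.m, J, s]) (2 + φ / c.m % 2) (c.C q (φ / c.m) J))
    (hB : B₀ + EE (c.M.NN c.m ^ c.m + q) ≤ B) {X Y : Reg q}
    (hn : ∀ a' ≤ q, (a' : ZMod (q + 1)) = a * lde (c.M.NN c.m) (2 * LL c.m)
      (c.M.chk c.m φ J (dig (c.M.NN c.m) c.m u)) (cat (LL c.m) (X (φ % 2)) (c.C q (φ / c.m) J)) →
      GG c B [[4, φ, s, u, J + 1, a', 0, 0]] X Y) :
    ∀ d k, k + d = q → ∀ e ≤ q, (e : ZMod (q + 1)) = -∑ k ∈ range k, lde (c.M.NN c.m) (2 * LL c.m)
      (c.M.chk c.m φ J (dig (c.M.NN c.m) c.m u)) (cat (LL c.m) (X (φ % 2)) fun i =>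
        ((k + 1 : ℕ) : ZMod (q + 1)) * X (2 + φ / c.m % 2) i + c.C q (φ / c.m) J i) →
      GG c B [[4, φ, s, u, J, a, k, e]] X Y := by
  have := h.small
  have := Nat.div_le_self φ c.m
  generalize hZ : c.M.NN c.m ^ c.m = Z at *
  intro d
  induction d with
  | zero =>
    intro k hk e he h1
    obtain rfl : q = k := hk.symm
    refine GG.one h (l := [[4, φ, s, u, J + 1, a * e % (q + 1), 0, 0]])
      ((wt_le (Z := Z + q) (by simp; omega)).trans (by omega)) ?_
      (hn _ (Nat.le_of_lt_succ (Nat.mod_lt _ (by omega))) ?_)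
    · show ((false, false), c.M.h4 φ s u J a _ e _) = _
      simp [Mc.h4, nlt, hJ]
    · have := (Mc.PD_cat (c.M.NN c.m) (2 * LL c.m) (LL c.m) (c.M.chk c.m φ J
        (dig (c.M.NN c.m) c.m u)) 0 (X (φ % 2)) (X (2 + φ / c.m % 2))
        (c.C q (φ / c.m) J)).zero (by omega)
      simp only [Pi.zero_apply, mul_zero, zero_mul, zero_add] at this
      rw [ZMod.natCast_mod, Nat.cast_mul, h1, this, neg_neg]
  | succ d ih =>
    intro k hk e he h1
    have hw : wt [[0, 2 + φ / c.m % 2, k + 1], [6, φ / c.m, J, 1], [5, φ, s, u, J, a, k, e]] ≤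
      EE (Z + q) := wt_le (by simp; omega)
    refine GG.psh h hw ((wt_le (Z := Z + q) (by simp; omega)).trans (by omega)) ?_ ?_
    · show ((false, false), c.M.h4 φ s u J a _ e _) = _
      simp [Mc.h4, nlt, hJ, show k < q by omega]
    refine GG.opn h (by omega) hC (by omega) ?_
    refine GG.one h (l := (c.M.h5 φ s u J a k e (stt c.m c.o (pt (2 + φ / c.m % 2) (k + 1 : ℕ)
      (c.C q (φ / c.m) J) X))).1) ((wt_le (Z := Z + q) (by simp; omega)).trans (by omega)) rfl ?_
    have := invN_le q (k + 1)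
    simp only [Mc.h5, qq_stt, stt_1, stt_3]
    generalize he' : (e + _) % (q + 1) = e'
    have he2 : e' ≤ q := he' ▸ Nat.le_of_lt_succ (Nat.mod_lt _ (by omega))
    refine GG.cls h (by omega) (by omega) hC
      ((Nat.add_le_add_left (wt_le (by simp; omega)) _).trans hB) (ih _ (by omega) _ he2 ?_)
    have := Nat.le_mul_self c.m
    rw [← he', ZMod.natCast_mod, Nat.cast_add, Nat.cast_mul, cast_q,
      ldeN_stt (show 0 < c.M.NN c.m from Nat.succ_pos _) h.small.1 _ _ (by omega) (by omega), h1,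
      sum_range_succ, pt_self, pt_ne (by omega), List.take_replicate,
      digN_eq (show 0 < c.M.NN c.m from Nat.succ_pos _) h.small.1,
      min_eq_left (by unfold LL; omega)]
    ring

theorem go_J (h : Fine c q) (hφ : φ < 2 * c.m * c.m) (hs : s ≤ q) (hu : u ≤ c.M.NN c.m ^ c.m)
    (hC : ∀ J < NB c.m,
      Sp c B₀ (fun s => [6, φ / c.m, J, s]) (2 + φ / c.m % 2) (c.C q (φ / c.m) J))
    (hB : B₀ + EE (c.M.NN c.m ^ c.m + q) ≤ B) (X : Reg q) :
    ∀ d J, J + d = NB c.m → ∀ a ≤ q, (a : ZMod (q + 1)) = ∏ J ∈ range J, lde (c.M.NN c.m)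
      (2 * LL c.m) (c.M.chk c.m φ J (dig (c.M.NN c.m) c.m u))
      (cat (LL c.m) (X (φ % 2)) (c.C q (φ / c.m) J)) →
      GG c B [[4, φ, s, u, J, a, 0, 0]] X (radd ((φ + 1) % 2) (fun i => -(s : ZMod (q + 1)) *
        ((∏ J ∈ range (NB c.m), lde (c.M.NN c.m) (2 * LL c.m)
          (c.M.chk c.m φ J (dig (c.M.NN c.m) c.m u)) (cat (LL c.m) (X (φ % 2))
          (c.C q (φ / c.m) J))) * extF c.m φ (X (φ % 2)) (dig (c.M.NN c.m) c.m u) i)) X) := by
  have := h.small
  intro d
  induction d with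
  | zero =>
    intro J hJ a ha h1
    obtain rfl : J = NB c.m := hJ
    refine GG.one h (l := []) ((wt_le (Z := c.M.NN c.m ^ c.m + q) (by simp; omega)).trans
      (by omega)) ?_ (GG.nil _)
    show ((false, false), c.M.h4 φ s u _ a _ _ _) = _
    have := Nat.le_mul_self c.m
    rw [Mc.h4, addU_stt _ (by omega) _ _ fun i hi => ?_]
    · simp [nlt]
      rfl
    · simp only [qq_stt, stt_1, stt_3, Nat.cast_mul, cast_q]
      rw [rg_stt _ (by omega), extN_eq h.hm, List.take_replicate,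
        digN_eq (show 0 < c.M.NN c.m from Nat.succ_pos _) h.small.1,
        min_eq_left (by unfold LL; omega), h1]
      ring
  | succ d ih =>
    intro J hJ a ha h1
    refine go_k h hφ hs hu (by omega) ha (hC J (by omega)) hB
      (fun a' ha' h2 => ih _ (by omega) _ ha' ?_) q 0 (by omega) 0 (by omega) (by simp)
    rw [h2, h1, prod_range_succ]

theorem go_G (h : Fine c q) (hφ : φ < 2 * c.m * c.m) (hs : s ≤ q)
    (hC : ∀ J < NB c.m,
      Sp c B₀ (fun s => [6, φ / c.m, J, s]) (2 + φ / c.m % 2) (c.C q (φ / c.m) J))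
    (hB : B₀ + 2 * EE (c.M.NN c.m ^ c.m + q) ≤ B) (X : Reg q) :
    GG c B [[3, φ, s, 0]] X (radd ((φ + 1) % 2) (fun i => -(s : ZMod (q + 1)) *
      c.M.Gh c.m (c.M.rr c.m c.o) c.c0 q φ (X (φ % 2)) i) X) := by
  have := h.small
  have e : powP (c.M.NN c.m) ((List.replicate (2 * LL c.m) q).take c.m) = c.M.NN c.m ^ c.m := by
    have := Nat.le_mul_self c.m
    rw [List.take_replicate, powP_eq h.small.1, min_eq_left (by unfold LL; omega)]
  refine GG.loop (c.M.NN c.m ^ c.m) (fun u => [3, φ, s, u]) _ (fun i => mul_sum ..) (fun Y => ?_)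
    fun u hu z Y hZ => ?_
  · refine GG.one h (l := []) ((wt_le (Z := c.M.NN c.m ^ c.m + q) (by simp; omega)).trans
      (by omega)) ?_ (GG.nil _)
    show ((false, false), c.M.h3 φ s _ _) = _
    simp only [Mc.h3, stt_1, stt_3, e]
    simp [nlt]
  · have hw : wt [[4, φ, s, u, 0, 1, 0, 0], [3, φ, s, u + 1]] ≤ EE (c.M.NN c.m ^ c.m + q) :=
      wt_le (by simp; omega)
    refine GG.psh h hw ((wt_le (Z := c.M.NN c.m ^ c.m + q) (by simp; omega)).trans (by omega)) ?_ ?_
    · show ((false, false), c.M.h3 φ s _ _) = _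
      simp only [Mc.h3, stt_1, stt_3, e]
      simp [nlt, hu]
    refine (go_J h hφ hs hu.le hC le_rfl _ _ 0 (zero_add _) 1 (by omega) (by simp)).cons
      (by simp only [wt_cons] at hw ⊢; omega) ?_
    simpa only [radd_ne (show φ % 2 ≠ (φ + 1) % 2 by omega)] using hZ

theorem sp_Y (h : Fine c q) (hφ : φ < 2 * c.m * c.m)
    (hC : ∀ J < NB c.m,
      Sp c B₀ (fun s => [6, φ / c.m, J, s]) (2 + φ / c.m % 2) (c.C q (φ / c.m) J))
    (hB : B₀ + 2 * EE (c.M.NN c.m ^ c.m + q) ≤ B)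
    (hY : Sp c B (fun s => [1, φ, s]) (φ % 2) (c.Y q φ)) :
    Sp c (B + EE q) (fun s => [1, φ + 1, s]) ((φ + 1) % 2) (c.Y q (φ + 1)) := by
  intro s hs X
  have := h.small
  refine GG.one h (l := [[2, φ, s, 0]]) ((wt_le (Z := q) (by simp; omega)).trans (by omega))
    rfl ?_
  refine GG.loop q (fun k => [2, φ, s, k]) (fun k i => -(s : ZMod (q + 1)) *
    c.M.Gh c.m (c.M.rr c.m c.o) c.c0 q φ
      (fun i => ((k + 1 : ℕ) : ZMod (q + 1)) * X (φ % 2) i + c.Y q φ i) i) (fun i => ?_)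
    (fun Y => ?_) fun k hk z Y hZ => ?_
  · rw [← mul_sum, (Mc.PD_Gh ..).zero h.hd]
    simp only [zero_mul, zero_add]
    rw [h.good.Gh_true h.hm (by omega) hφ]
    ring
  · refine GG.one h (l := []) ((wt_le (Z := q) (by simp; omega)).trans (by omega)) ?_ (GG.nil _)
    show ((false, false), Mc.h2 φ s _ _) = _
    simp [Mc.h2, nlt]
  · have := invN_le q (k + 1)
    have hw : wt [[0, φ % 2, k + 1], [1, φ, 1], [3, φ, s, 0], [1, φ, q],
        [0, φ % 2, invN q (k + 1)], [2, φ, s, k + 1]] ≤ EE q := wt_le (by simp; omega)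
    refine GG.psh h hw ((wt_le (Z := q) (by simp; omega)).trans (by omega))
      (by show ((false, false), Mc.h2 φ s _ _) = _; simp [Mc.h2, nlt, hk]) ?_
    refine GG.opn h (by omega) hY (by omega) ?_
    simp only [wt_cons, wt_nil] at hw
    refine (go_G h hφ hs hC hB _).cons (by simp only [wt_cons, wt_nil]; omega) ?_
    rw [radd_pt (by omega)]
    refine GG.cls h (by omega) hk hY (by simp only [wt_cons, wt_nil]; omega) ?_
    simpa only [pt_self, radd_ne (show φ % 2 ≠ (φ + 1) % 2 by omega)] using hZ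

end Y

theorem Sp.mono {B B' t j} {v : ℕ → ZMod (q + 1)} (h : Sp c B t j v) (hB : B ≤ B') :
    Sp c B' t j v := fun s hs X => Go.mono (h s hs X) le_rfl hB

theorem sp_all (h : Fine c q) : ∀ I ≤ 2 * c.m,
    Sp c ((I + 1) * (2 * EE (c.M.NN c.m ^ c.m + q) + (c.m + 2) * EE q)) (fun s => [1, I * c.m, s])
      (I * c.m % 2) (c.Y q (I * c.m)) ∧ ∀ J < NB c.m,
    Sp c ((I + 1) * (2 * EE (c.M.NN c.m ^ c.m + q) + (c.m + 2) * EE q)) (fun s => [6, I, J, s])
      (2 + I % 2) (c.C q I J) := by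
  intro I
  induction I with
  | zero =>
    intro _
    simp only [zero_mul, zero_add, one_mul, add_mul]
    exact ⟨(sp_Y0 h).mono (by omega), fun J hJ => (sp_C0 h hJ).mono (by omega)⟩
  | succ I ih =>
    intro hI
    obtain ⟨h1, h2⟩ := ih (by omega)
    rw [add_one_mul (I + 1)]
    generalize (I + 1) * (2 * EE (c.M.NN c.m ^ c.m + q) + (c.m + 2) * EE q) = S at *
    have : ∀ k ≤ c.m, Sp c (S + 2 * EE (c.M.NN c.m ^ c.m + q) + k * EE q)
        (fun s => [1, I * c.m + k, s]) ((I * c.m + k) % 2) (c.Y q (I * c.m + k)) := by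
      intro k
      induction k with
      | zero => exact fun _ => h1.mono (by omega)
      | succ k ih =>
        intro hk
        have e : (I * c.m + k) / c.m = I := by
          rw [add_comm, Nat.add_mul_div_right _ _ h.hm, Nat.div_eq_of_lt hk, zero_add]
        have := Nat.mul_le_mul_right c.m hI
        rw [add_one_mul] at this
        exact (sp_Y h (by omega) (by rw [e]; exact h2) (by omega) (ih (by omega))).mono
          (by rw [add_one_mul]; omega)
    have h3 := this c.m le_rfl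
    rw [← add_one_mul] at h3
    exact ⟨h3.mono (by rw [add_mul]; omega), fun J hJ =>
      (sp_C h hI hJ h3 ((h2 J hJ).mono (by omega))).mono (by rw [add_mul]; omega)⟩

end Vale.Agent.P312
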