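import Vale.Agent.P312.Defs

/-! A structured language on four stacks of bits with a read-only input tape, compiled to
`WorkTM`, with space accounting. -/

namespace Vale.Agent.P312

open Function

inductive Prog (A : Type) : Type
  | skip : Prog A
  | push (r : Fin 4) (b : Bool) : Prog A
  | pop (r : Fin 4) : Prog A
  | seq (P Q : Prog A) : Prog A
  | loop (r : Fin 4) (c : Option Bool → Bool) (P : Prog A) : Prog A
  | cond (r : Fin 4) (c : Option Bool → Bool) (P Q : Prog A) : Prog A
  | mv (d : SignType) : Prog A
  | sym (P : Option A → Prog A) : Prog A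

abbrev St := Fin 4 → List Bool

variable {A : Type}

/-- Big step semantics in which no stack gets longer than `σ`. -/
inductive Run (w : List A) (σ : ℕ) : Prog A → St → ℕ → St → ℕ → Prop
  | skip (s i) : Run w σ .skip s i s i
  | push (r b s i) : (s r).length < σ → Run w σ (.push r b) s i (update s r (b :: s r)) i
  | pop (r s i) : Run w σ (.pop r) s i (update s r (s r).tail) i
  | seq {P Q s i t j u k} : Run w σ P s i t j → Run w σ Q t j u k → Run w σ (.seq P Q) s i u k
  | loopF {r c P s i} : c (s r).head? = false → Run w σ (.loop r c P) s i s i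
  | loopT {r c P s i t j u k} : c (s r).head? = true → Run w σ P s i t j →
      Run w σ (.loop r c P) t j u k → Run w σ (.loop r c P) s i u k
  | condT {r c P Q s i t j} : c (s r).head? = true → Run w σ P s i t j →
      Run w σ (.cond r c P Q) s i t j
  | condF {r c P Q s i t j} : c (s r).head? = false → Run w σ Q s i t j →
      Run w σ (.cond r c P Q) s i t j
  | mv (d s i) : Run w σ (.mv d) s i s (inMove w i d)
  | sym {P s i t j} : Run w σ (P (inSym w i)) s i t j → Run w σ (.sym P) s i t j

theorem Run.of_eq {w : List A} {σ P s i t t' j} (h : Run w σ P s i t j) (e : t = t') :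
    Run w σ P s i t' j := e ▸ h

@[reducible] def Lab : Prog A → Type
  | .skip => Unit
  | .push _ _ => Bool
  | .pop _ => Unit
  | .seq P Q => Lab P ⊕ Lab Q
  | .loop _ _ P => Option (Lab P)
  | .cond _ _ P Q => Option (Lab P ⊕ Lab Q)
  | .mv _ => Unit
  | .sym P => Option ((a : Option A) × Lab (P a))

theorem lab_finite [Finite A] : ∀ P : Prog A, Finite (Lab P)
  | .skip => inferInstanceAs (Finite Unit)
  | .push _ _ => inferInstanceAs (Finite Bool)
  | .pop _ => inferInstanceAs (Finite Unit)
  | .seq P Q => by
      have := lab_finite P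
      have := lab_finite Q
      exact inferInstanceAs (Finite (Lab P ⊕ Lab Q))
  | .loop _ _ P => by
      have := lab_finite P
      exact inferInstanceAs (Finite (Option (Lab P)))
  | .cond _ _ P Q => by
      have := lab_finite P
      have := lab_finite Q
      exact inferInstanceAs (Finite (Option (Lab P ⊕ Lab Q)))
  | .mv _ => inferInstanceAs (Finite Unit)
  | .sym P => by
      have := fun a => lab_finite (P a)
      exact inferInstanceAs (Finite (Option ((a : Option A) × Lab (P a))))

def start : (P : Prog A) → Lab P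
  | .skip => ()
  | .push _ _ => false
  | .pop _ => ()
  | .seq P _ => Sum.inl (start P)
  | .loop _ _ _ => none
  | .cond _ _ _ _ => none
  | .mv _ => ()
  | .sym _ => none

abbrev Ins (A Λ : Type) :=
  Option A → (Fin 4 → Option Bool) → Λ × SignType × (Fin 4 → Option Bool × SignType)

def keep (x : Fin 4 → Option Bool) : Fin 4 → Option Bool × SignType := fun j => (x j, 0)

def code {Λ : Type} : (P : Prog A) → (Lab P → Λ) → Λ → Lab P → Ins A Λ
  | .skip, _, e, _ => fun _ x => (e, 0, keep x)
  | .push r _, emb, _, false => fun _ x => (emb true, 0, update (keep x) r (x r, 1))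
  | .push r b, _, e, true => fun _ x => (e, 0, update (keep x) r (some b, 0))
  | .pop r, _, e, _ => fun _ x =>
      (e, 0, update (keep x) r (none, if (x r).isSome then -1 else 0))
  | .seq P Q, emb, _, Sum.inl l => code P (fun y => emb (Sum.inl y)) (emb (Sum.inr (start Q))) l
  | .seq _ Q, emb, e, Sum.inr l => code Q (fun y => emb (Sum.inr y)) e l
  | .loop r c P, emb, e, none => fun _ x =>
      (if c (x r) then emb (some (start P)) else e, 0, keep x)
  | .loop _ _ P, emb, _, some l => code P (fun y => emb (some y)) (emb none) l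
  | .cond r c P Q, emb, _, none => fun _ x =>
      (if c (x r) then emb (some (Sum.inl (start P))) else emb (some (Sum.inr (start Q))), 0,
        keep x)
  | .cond _ _ P _, emb, e, some (Sum.inl l) => code P (fun y => emb (some (Sum.inl y))) e l
  | .cond _ _ _ Q, emb, e, some (Sum.inr l) => code Q (fun y => emb (some (Sum.inr y))) e l
  | .mv d, _, e, _ => fun _ x => (e, d, keep x)
  | .sym P, emb, _, none => fun a x => (emb (some ⟨a, start (P a)⟩), 0, keep x)
  | .sym P, emb, e, some ⟨a, l⟩ => code (P a) (fun y => emb (some ⟨a, y⟩)) e l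

/-- The tape holding a stack; the top is on the cell `l.length`. -/
def tp : List Bool → ℤ → Option Bool
  | [] => fun _ => none
  | b :: l => update (tp l) ((l.length : ℤ) + 1) (some b)

theorem tp_high : ∀ (l : List Bool) (i : ℤ), (l.length : ℤ) < i → tp l i = none
  | [], _, _ => rfl
  | b :: l, i, h => by
      simp only [List.length_cons, Nat.cast_add, Nat.cast_one] at h
      rw [tp, update_of_ne (by omega), tp_high l i (by omega)]

theorem tp_top : ∀ l : List Bool, tp l l.length = l.head?
  | [] => rfl
  | b :: l => by simp [tp]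

/-- The machine with states `Λ ⊕ Bool`. -/
@[reducible] def mach {Λ : Type} [Finite Λ] (l₀ : Λ) (ins : Λ → Ins A (Λ ⊕ Bool)) : WorkTM A where
  Q := Λ ⊕ Bool
  G := Option Bool
  finQ := inferInstance
  finG := inferInstance
  k := 4
  blank := none
  start := Sum.inl l₀
  out := Sum.elim (fun _ => none) some
  δ := Sum.elim ins fun b _ x => (Sum.inr b, 0, keep x)

variable {Λ : Type} [Finite Λ] {l₀ : Λ} {ins : Λ → Ins A (Λ ⊕ Bool)}

def cfg (l₀ : Λ) (ins : Λ → Ins A (Λ ⊕ Bool)) (q : Λ ⊕ Bool) (s : St) (i : ℕ) :
    (mach l₀ ins).Cfg := ⟨q, i, fun j => (s j).length, fun j => tp (s j)⟩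

def Ok (σ : ℕ) (c : (mach l₀ ins).Cfg) : Prop := ∀ j, |c.pos j| ≤ σ

def Reach (w : List A) (σ : ℕ) (a b : (mach l₀ ins).Cfg) : Prop :=
  Relation.ReflTransGen (fun x y => y = (mach l₀ ins).step w x ∧ Ok σ y) a b

theorem step_inl (w : List A) (l : Λ) (i : ℕ) (p : Fin 4 → ℤ) (T : Fin 4 → ℤ → Option Bool) :
    (mach l₀ ins).step w ⟨Sum.inl l, i, p, T⟩ =
      ⟨(ins l (inSym w i) fun j => T j (p j)).1,
        inMove w i (ins l (inSym w i) fun j => T j (p j)).2.1,
        fun j => p j + (((ins l (inSym w i) fun j => T j (p j)).2.2 j).2 : ℤ),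
        fun j => update (T j) (p j) ((ins l (inSym w i) fun j => T j (p j)).2.2 j).1⟩ := rfl

theorem inMove_zero (w : List A) {i : ℕ} (hi : i ≤ w.length + 1) : inMove w i 0 = i := by
  simp [inMove, hi]

theorem inMove_le (w : List A) (i : ℕ) (d : SignType) : inMove w i d ≤ w.length + 1 :=
  min_le_left _ _

theorem step_keep (w : List A) (l : Λ) (s : St) (i : ℕ) (e : Λ ⊕ Bool) (d : SignType)
    (h : ins l (inSym w i) (fun j => (s j).head?) = (e, d, keep fun j => (s j).head?)) :
    (mach l₀ ins).step w (cfg l₀ ins (Sum.inl l) s i) = cfg l₀ ins e s (inMove w i d) := by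
  unfold cfg
  rw [step_inl]
  simp only [tp_top, h, keep]
  congr 1
  all_goals funext j; simp [← tp_top]

def Bdd (σ : ℕ) (s : St) : Prop := ∀ j, (s j).length ≤ σ

theorem Bdd.ok {σ : ℕ} {s : St} (h : Bdd σ s) (q i) : Ok σ (cfg l₀ ins q s i) := fun j => by
  have := h j
  simp only [cfg, Nat.abs_cast]
  exact_mod_cast this

theorem Run.bdd {w : List A} {σ P s i t j} (h : Run w σ P s i t j) :
    Bdd σ s → i ≤ w.length + 1 → Bdd σ t ∧ j ≤ w.length + 1 := by
  induction h with
  | skip => exact fun a b => ⟨a, b⟩
  | push r b s i h =>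
    refine fun a b => ⟨fun j => ?_, b⟩
    by_cases hj : j = r
    · subst hj; simp only [update_self, List.length_cons]; omega
    · rw [update_of_ne hj]; exact a j
  | pop r s i =>
    refine fun a b => ⟨fun j => ?_, b⟩
    by_cases hj : j = r
    · subst hj; have := a j; simp only [update_self, List.length_tail]; omega
    · rw [update_of_ne hj]; exact a j
  | seq _ _ ih1 ih2 => exact fun a b => ih2 (ih1 a b).1 (ih1 a b).2
  | loopF => exact fun a b => ⟨a, b⟩
  | loopT _ _ _ ih1 ih2 => exact fun a b => ih2 (ih1 a b).1 (ih1 a b).2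
  | condT _ _ ih => exact ih
  | condF _ _ ih => exact ih
  | mv d s i => exact fun a _ => ⟨a, inMove_le _ _ _⟩
  | sym _ ih => exact ih

theorem reach_keep {w : List A} {σ : ℕ} {l : Λ} {s : St} {i : ℕ} {e : Λ ⊕ Bool} {d : SignType}
    (hs : Bdd σ s)
    (h : ins l (inSym w i) (fun j => (s j).head?) = (e, d, keep fun j => (s j).head?)) :
    Reach w σ (cfg l₀ ins (Sum.inl l) s i) (cfg l₀ ins e s (inMove w i d)) :=
  Relation.ReflTransGen.single ⟨(step_keep w l s i e d h).symm, hs.ok _ _⟩

theorem sim {w : List A} {σ : ℕ} {P : Prog A} {s i t j} (h : Run w σ P s i t j) :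
    ∀ (emb : Lab P → Λ) (e : Λ),
      (∀ x, ins (emb x) = code P (fun y => Sum.inl (emb y)) (Sum.inl e) x) →
      Bdd σ s → i ≤ w.length + 1 →
      Reach w σ (cfg l₀ ins (Sum.inl (emb (start P))) s i) (cfg l₀ ins (Sum.inl e) t j) := by
  induction h with
  | skip s i =>
    intro emb e hM hs hi
    have := reach_keep (l₀ := l₀) (ins := ins) (w := w) (i := i) (l := emb (start .skip)) (e := Sum.inl e)
      (d := 0) hs (by rw [hM]; rfl)
    rwa [inMove_zero w hi] at this
  | push r b s i h =>
    intro emb e hM hs hi
    have hb := (Run.push (w := w) r b s i h).bdd hs hi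
    refine Relation.ReflTransGen.head (b := ⟨Sum.inl (emb true), i,
      update (fun j => ((s j).length : ℤ)) r ((s r).length + 1), fun j => tp (s j)⟩) ⟨?_, ?_⟩
      (Relation.ReflTransGen.single ⟨?_, hb.1.ok _ _⟩)
    · unfold cfg
      rw [step_inl, hM]
      simp only [start, code, inMove_zero w hi]
      congr 1
      · funext j
        by_cases hj : j = r
        · subst hj; simp
        · simp [update_of_ne hj, keep]
      · funext j
        by_cases hj : j = r
        · subst hj; simp
        · simp [update_of_ne hj, keep]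
    · intro j
      by_cases hj : j = r
      · subst hj
        simp only [update_self]
        rw [abs_of_nonneg (by positivity)]
        exact_mod_cast h
      · simp only [update_of_ne hj, Nat.abs_cast]
        exact_mod_cast hs j
    · unfold cfg
      rw [step_inl, hM]
      simp only [code, inMove_zero w hi]
      congr 1
      · funext j
        by_cases hj : j = r
        · subst hj; simp
        · simp [update_of_ne hj, keep]
      · funext j
        by_cases hj : j = r
        · subst hj; simp [tp]
        · simp [update_of_ne hj, keep]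
  | pop r s i =>
    intro emb e hM hs hi
    have hb := (Run.pop (w := w) (σ := σ) r s i).bdd hs hi
    refine Relation.ReflTransGen.single ⟨?_, hb.1.ok _ _⟩
    unfold cfg
    rw [step_inl, hM]
    simp only [code, inMove_zero w hi, tp_top]
    congr 1
    · funext j
      by_cases hj : j = r
      · subst hj
        cases hl : s j <;> simp
      · simp [update_of_ne hj, keep]
    · funext j
      by_cases hj : j = r
      · subst hj
        cases hl : s j with
        | nil => funext z; simp [tp, update_apply]
        | cons b l =>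
          simp only [update_self, List.tail_cons, tp, List.length_cons, Nat.cast_add,
            Nat.cast_one, update_idem]
          rw [← tp_high l (l.length + 1) (by omega), update_eq_self]
      · simp only [update_of_ne hj, keep]
        rw [← tp_top, update_eq_self]
  | seq h1 h2 ih1 ih2 =>
    intro emb e hM hs hi
    have hb := h1.bdd hs hi
    exact (ih1 (fun y => emb (Sum.inl y)) _ (fun x => hM (Sum.inl x)) hs hi).trans
      (ih2 (fun y => emb (Sum.inr y)) _ (fun x => hM (Sum.inr x)) hb.1 hb.2)
  | @loopF r c P s i h =>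
    intro emb e hM hs hi
    have := reach_keep (l₀ := l₀) (ins := ins) (w := w) (i := i) (l := emb none) (e := Sum.inl e)
      (d := 0) hs (by rw [hM]; simp [code, h])
    rwa [inMove_zero w hi] at this
  | @loopT r c P s i t j u k h h1 h2 ih1 ih2 =>
    intro emb e hM hs hi
    have hb := h1.bdd hs hi
    have := reach_keep (l₀ := l₀) (ins := ins) (w := w) (i := i) (l := emb none)
      (e := Sum.inl (emb (some (start P)))) (d := 0) hs (by rw [hM]; simp [code, h])
    rw [inMove_zero w hi] at this
    exact (this.trans (ih1 (fun y => emb (some y)) _ (fun x => hM (some x)) hs hi)).trans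
      (ih2 emb e hM hb.1 hb.2)
  | @condT r c P Q s i t j h h1 ih =>
    intro emb e hM hs hi
    have := reach_keep (l₀ := l₀) (ins := ins) (w := w) (i := i) (l := emb none)
      (e := Sum.inl (emb (some (Sum.inl (start P))))) (d := 0) hs (by rw [hM]; simp [code, h])
    rw [inMove_zero w hi] at this
    exact this.trans (ih (fun y => emb (some (Sum.inl y))) _ (fun x => hM (some (Sum.inl x))) hs hi)
  | @condF r c P Q s i t j h h1 ih =>
    intro emb e hM hs hi
    have := reach_keep (l₀ := l₀) (ins := ins) (w := w) (i := i) (l := emb none)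
      (e := Sum.inl (emb (some (Sum.inr (start Q))))) (d := 0) hs (by rw [hM]; simp [code, h])
    rw [inMove_zero w hi] at this
    exact this.trans (ih (fun y => emb (some (Sum.inr y))) _ (fun x => hM (some (Sum.inr x))) hs hi)
  | mv d s i =>
    intro emb e hM hs hi
    exact reach_keep (l₀ := l₀) (l := emb (start (.mv d))) hs (by rw [hM]; rfl)
  | @sym P s i t j h1 ih =>
    intro emb e hM hs hi
    have := reach_keep (l₀ := l₀) (ins := ins) (w := w) (i := i) (l := emb none)
      (e := Sum.inl (emb (some ⟨_, start (P (inSym w i))⟩))) (d := 0) hs (by rw [hM]; rfl)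
    rw [inMove_zero w hi] at this
    exact this.trans (ih (fun y => emb (some ⟨_, y⟩)) _ (fun x => hM (some ⟨_, x⟩)) hs hi)

theorem reach_iter {w : List A} {σ : ℕ} {a b : (mach l₀ ins).Cfg} (h : Reach w σ a b)
    (hb : (mach l₀ ins).step w b = b) (ha : Ok σ a) :
    (∃ T, ((mach l₀ ins).step w)^[T] a = b) ∧ ∀ T, Ok σ (((mach l₀ ins).step w)^[T] a) := by
  induction h using Relation.ReflTransGen.head_induction_on with
  | refl => exact ⟨⟨0, rfl⟩, fun T => by rwa [iterate_fixed hb]⟩
  | head h1 _ ih =>
    obtain ⟨rfl, h2⟩ := h1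
    obtain ⟨⟨T, hT⟩, h3⟩ := ih h2
    refine ⟨⟨T + 1, hT⟩, fun T => ?_⟩
    cases T with
    | zero => exact ha
    | succ T => exact h3 T

/-- A program that leaves the answer on top of stack `0` gives a space bounded machine. -/
theorem space_of_prog [Finite A] (P : Prog A) (L : Set (List A)) (s : ℕ → ℝ) (C : ℝ)
    (h : ∀ w : List A, ∃ (σ : ℕ) (t : St) (j : ℕ) (b : Bool), Run w σ P (fun _ => []) 0 t j ∧
      (t 0).head? = some b ∧ (b = true ↔ w ∈ L) ∧ (σ : ℝ) ≤ C * (s w.length + 1)) :
    SPACE s L := by
  have := lab_finite P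
  let ins : Option (Lab P) → Ins A (Option (Lab P) ⊕ Bool) := fun o =>
    match o with
    | some x => code P (fun y => Sum.inl (some y)) (Sum.inl none) x
    | none => fun _ x => (Sum.inr ((x 0).getD false), 0, keep x)
  refine ⟨mach (some (start P)) ins, C, fun w => ?_⟩
  obtain ⟨σ, t, j, b, h1, h2, h3, h4⟩ := h w
  have hs : Bdd σ fun _ => [] := fun _ => Nat.zero_le _
  have hb := h1.bdd hs (Nat.zero_le _)
  have r1 := sim (l₀ := some (start P)) (ins := ins) h1 some none (fun _ => rfl) hs (Nat.zero_le _)
  have r2 := reach_keep (l₀ := some (start P)) (ins := ins) (w := w) (i := j) (l := none)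
    (e := Sum.inr b) (d := 0) hb.1 (by simp [ins, h2])
  obtain ⟨⟨T, hT⟩, h5⟩ := reach_iter (r1.trans r2) rfl (hs.ok _ _)
  have e0 : (mach (some (start P)) ins).init =
      cfg (some (start P)) ins (Sum.inl (some (start P))) (fun _ => []) 0 := rfl
  rw [e0]
  refine ⟨⟨T, b, by rw [hT]; rfl, h3⟩, fun T j => le_trans ?_ h4⟩
  exact_mod_cast h5 T j

end Vale.Agent.P312
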