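import Vale.Agent.P312.Stack
import Vale.Agent.Common.TreeLib

/-! Point-free tree programs compiled to the stack language, with space accounting. -/

namespace Vale.Agent.P312

open Function
open Vale.Agent.Common.TreeTM (Tr Fn Iter tb sz_cons sz_nil sz_pos)

/-- Evaluation with all moved values bounded by `β`. -/
def Ev (β : ℕ) : Fn → Tr → Tr → Prop
  | .nil, x, y => y = .nil ∧ x.sz ≤ β
  | .id, x, y => y = x
  | .fst, x, y => (∃ b, x = .cons y b) ∧ x.sz ≤ β
  | .snd, x, y => (∃ a, x = .cons a y) ∧ x.sz ≤ β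
  | .isCons, x, y => ((x = .nil ∧ y = tb false) ∨ ((∃ a b, x = .cons a b) ∧ y = tb true)) ∧
      x.sz ≤ β
  | .pair f g, x, y => ∃ a b, Ev β f x a ∧ Ev β g x b ∧ y = .cons a b ∧ x.sz ≤ β ∧ a.sz ≤ β ∧
      b.sz ≤ β
  | .comp f g, x, y => ∃ z, Ev β g x z ∧ Ev β f z y
  | .ite f g, x, y => ∃ r, (x = .cons (tb true) r ∧ Ev β f r y) ∨
      (x = .cons (tb false) r ∧ Ev β g r y)
  | .loop f, x, y => ∃ m, Iter (fun u v => u.sz ≤ β ∧ Ev β f u v) m x y ∧ y.sz ≤ β ∧
      ∃ r, y = .cons (tb false) r

theorem Ev.mono {β β' : ℕ} (h : β ≤ β') : ∀ {F : Fn} {x y : Tr}, Ev β F x y → Ev β' F x y := by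
  intro F
  induction F with
  | nil => exact fun h1 => ⟨h1.1, h1.2.trans h⟩
  | id => exact fun h1 => h1
  | fst => exact fun h1 => ⟨h1.1, h1.2.trans h⟩
  | snd => exact fun h1 => ⟨h1.1, h1.2.trans h⟩
  | isCons => exact fun h1 => ⟨h1.1, h1.2.trans h⟩
  | pair f g ihf ihg =>
    rintro x y ⟨a, b, h1, h2, h3, h4, h5, h6⟩
    exact ⟨a, b, ihf h1, ihg h2, h3, h4.trans h, h5.trans h, h6.trans h⟩
  | comp f g ihf ihg =>
    rintro x y ⟨z, h1, h2⟩
    exact ⟨z, ihg h1, ihf h2⟩
  | ite f g ihf ihg =>
    rintro x y ⟨r, h1 | h1⟩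
    · exact ⟨r, Or.inl ⟨h1.1, ihf h1.2⟩⟩
    · exact ⟨r, Or.inr ⟨h1.1, ihg h1.2⟩⟩
  | loop f ih =>
    rintro x y ⟨m, h1, h2, h3⟩
    exact ⟨m, h1.mono fun _ _ h4 => ⟨h4.1.trans h, ih h4.2⟩, h2.trans h, h3⟩

def st (d a b c : List Bool) : St := ![d, a, b, c]

@[simp] theorem st_0 (d a b c) : st d a b c 0 = d := rfl
@[simp] theorem st_1 (d a b c) : st d a b c 1 = a := rfl
@[simp] theorem st_2 (d a b c) : st d a b c 2 = b := rfl
@[simp] theorem st_3 (d a b c) : st d a b c 3 = c := rfl
@[simp] theorem up_0 (d a b c x) : update (st d a b c) 0 x = st x a b c := by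
  funext r; fin_cases r <;> rfl
@[simp] theorem up_1 (d a b c x) : update (st d a b c) 1 x = st d x b c := by
  funext r; fin_cases r <;> rfl
@[simp] theorem up_2 (d a b c x) : update (st d a b c) 2 x = st d a x c := by
  funext r; fin_cases r <;> rfl
@[simp] theorem up_3 (d a b c x) : update (st d a b c) 3 x = st d a b x := by
  funext r; fin_cases r <;> rfl

variable {A : Type} {w : List A} {σ i : ℕ}

theorem push0 {d a b c x} (h : d.length < σ) :
    Run w σ (.push 0 x) (st d a b c) i (st (x :: d) a b c) i :=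
  (Run.push 0 x _ i (by simpa using h)).of_eq (by simp)
theorem push1 {d a b c x} (h : a.length < σ) :
    Run w σ (.push 1 x) (st d a b c) i (st d (x :: a) b c) i :=
  (Run.push 1 x _ i (by simpa using h)).of_eq (by simp)
theorem push2 {d a b c x} (h : b.length < σ) :
    Run w σ (.push 2 x) (st d a b c) i (st d a (x :: b) c) i :=
  (Run.push 2 x _ i (by simpa using h)).of_eq (by simp)
theorem push3 {d a b c x} (h : c.length < σ) :
    Run w σ (.push 3 x) (st d a b c) i (st d a b (x :: c)) i :=
  (Run.push 3 x _ i (by simpa using h)).of_eq (by simp)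
theorem pop0 {d a b c} : Run w σ (.pop 0) (st d a b c) i (st d.tail a b c) i :=
  (Run.pop 0 _ i).of_eq (by simp)
theorem pop1 {d a b c} : Run w σ (.pop 1) (st d a b c) i (st d a.tail b c) i :=
  (Run.pop 1 _ i).of_eq (by simp)
theorem pop2 {d a b c} : Run w σ (.pop 2) (st d a b c) i (st d a b.tail c) i :=
  (Run.pop 2 _ i).of_eq (by simp)
theorem pop3 {d a b c} : Run w σ (.pop 3) (st d a b c) i (st d a b c.tail) i :=
  (Run.pop 3 _ i).of_eq (by simp)

/-- Some iterations of a loop. -/
def Lp (w : List A) (σ : ℕ) (r : Fin 4) (c : Option Bool → Bool) (P : Prog A) (s : St) (i : ℕ)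
    (t : St) (j : ℕ) : Prop :=
  ∀ u k, Run w σ (.loop r c P) t j u k → Run w σ (.loop r c P) s i u k

theorem Lp.refl {r c} {P : Prog A} {s} : Lp w σ r c P s i s i := fun _ _ h => h

theorem Lp.trans {r c} {P : Prog A} {s t u j k} (h : Lp w σ r c P s i t j)
    (h' : Lp w σ r c P t j u k) : Lp w σ r c P s i u k := fun _ _ h2 => h _ _ (h' _ _ h2)

theorem Lp.one {r c} {P : Prog A} {s t j} (h : c (s r).head? = true) (h1 : Run w σ P s i t j) :
    Lp w σ r c P s i t j := fun _ _ h2 => Run.loopT h h1 h2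

theorem Lp.run {r c} {P : Prog A} {s t j} (h : Lp w σ r c P s i t j)
    (hc : c (t r).head? = false) : Run w σ (.loop r c P) s i t j := h _ _ (Run.loopF hc)

def isT (o : Option Bool) : Bool := o.getD false
def isS (o : Option Bool) : Bool := o.isSome

def mvBody (P : Bool → Prog A) : Prog A :=
  .seq (.pop 3) (.cond 0 isT (.seq (.pop 0) (.seq (P true) (.seq (.push 3 true) (.push 3 true))))
    (.seq (.pop 0) (P false)))

def mv (P : Bool → Prog A) : Prog A := .seq (.push 3 true) (.loop 3 isT (mvBody P))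

theorem run_mv {P : Bool → Prog A} (fa fb : List Bool → List Bool)
    (hP : ∀ x d m c, m.length < σ →
      Run w σ (P x) (st d (fa m) (fb m) c) i (st d (fa (x :: m)) (fb (x :: m)) c) i)
    (t : Tr) (ht : t.sz < σ) (d : List Bool) :
    Run w σ (mv P) (st (t.enc ++ d) (fa []) (fb []) []) i
      (st d (fa t.enc.reverse) (fb t.enc.reverse) []) i := by
  have key : ∀ (t : Tr) d m c, m.length + t.sz ≤ σ → c.length + t.sz ≤ σ →
      Lp w σ 3 isT (mvBody P) (st (t.enc ++ d) (fa m) (fb m) (true :: c)) i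
      (st d (fa (t.enc.reverse ++ m)) (fb (t.enc.reverse ++ m)) c) i := by
    intro t
    induction t with
    | nil =>
      intro d m c h1 _
      rw [sz_nil] at h1
      refine Lp.one rfl (Run.seq pop3 (Run.condF rfl (Run.seq pop0 ?_)))
      simpa [Tr.enc] using hP false d m c (by omega)
    | cons a b iha ihb =>
      intro d m c h1 h2
      rw [sz_cons] at h1 h2
      have := sz_pos a
      have := sz_pos b
      refine (Lp.one (t := st (a.enc ++ (b.enc ++ d)) (fa (true :: m)) (fb (true :: m))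
        (true :: true :: c)) (j := i) rfl (Run.seq pop3 (Run.condT rfl (Run.seq pop0 (Run.seq
          (t := st (a.enc ++ (b.enc ++ d)) (fa (true :: m)) (fb (true :: m)) c) (j := i) ?_
          (Run.seq (push3 (by omega)) (push3 (by simp; omega)))))))).trans ?_
      · simpa [Tr.enc] using hP true (a.enc ++ (b.enc ++ d)) m c (by omega)
      · have := (iha (b.enc ++ d) (true :: m) (true :: c) (by simp; omega) (by simp; omega)).trans
          (ihb d _ c (by simp [Tr.sz] at *; omega) (by omega))
        simpa [Tr.enc, mvBody] using this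
  refine Run.seq (push3 (by simp; omega)) ?_
  have := (key t d [] [] (by simp; omega) (by simp; omega)).run rfl
  simpa using this

def flush (r : Fin 4) : Prog A :=
  .loop r isS (.cond r isT (.seq (.pop r) (.push 0 true)) (.seq (.pop r) (.push 0 false)))

theorem run_flushA (l d b : List Bool) (hl : l.length + d.length ≤ σ) :
    Run w σ (flush 1) (st d l b []) i (st (l.reverse ++ d) [] b []) i := by
  induction l generalizing d with
  | nil => exact Run.loopF rfl
  | cons x l ih =>
    simp only [List.length_cons] at hl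
    refine Run.loopT (t := st (x :: d) l b []) (j := i) rfl ?_
      (by simpa [flush] using ih (x :: d) (by simp; omega))
    cases x
    · exact Run.condF rfl (Run.seq pop1 (push0 (by omega)))
    · exact Run.condT rfl (Run.seq pop1 (push0 (by omega)))

theorem run_flushB (l d a : List Bool) (hl : l.length + d.length ≤ σ) :
    Run w σ (flush 2) (st d a l []) i (st (l.reverse ++ d) a [] []) i := by
  induction l generalizing d with
  | nil => exact Run.loopF rfl
  | cons x l ih =>
    simp only [List.length_cons] at hl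
    refine Run.loopT (t := st (x :: d) a l []) (j := i) rfl ?_
      (by simpa [flush] using ih (x :: d) (by simp; omega))
    cases x
    · exact Run.condF rfl (Run.seq pop2 (push0 (by omega)))
    · exact Run.condT rfl (Run.seq pop2 (push0 (by omega)))

def mvA : Prog A := mv fun x => .push 1 x
def mvB : Prog A := mv fun x => .push 2 x
def mvAB : Prog A := mv fun x => .seq (.push 1 x) (.push 2 x)
def drop : Prog A := mv fun _ => .skip
def dup : Prog A := .seq mvAB (.seq (flush 1) (flush 2))
def swap : Prog A := .seq mvA (.seq mvB (.seq (flush 1) (flush 2)))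

theorem run_mvA (t : Tr) (ht : t.sz < σ) (d b : List Bool) :
    Run w σ mvA (st (t.enc ++ d) [] b []) i (st d t.enc.reverse b []) i :=
  run_mv id (fun _ => b) (fun _ _ _ _ h => push1 h) t ht d

theorem run_mvB (t : Tr) (ht : t.sz < σ) (d a : List Bool) :
    Run w σ mvB (st (t.enc ++ d) a [] []) i (st d a t.enc.reverse []) i :=
  run_mv (fun _ => a) id (fun _ _ _ _ h => push2 h) t ht d

theorem run_drop (t : Tr) (ht : t.sz < σ) (d a b : List Bool) :
    Run w σ drop (st (t.enc ++ d) a b []) i (st d a b []) i :=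
  run_mv (fun _ => a) (fun _ => b) (fun _ _ _ _ _ => Run.skip _ _) t ht d

theorem run_dup (t : Tr) (d : List Bool) (ht : d.length + 2 * t.sz ≤ σ) :
    Run w σ dup (st (t.enc ++ d) [] [] []) i (st (t.enc ++ (t.enc ++ d)) [] [] []) i := by
  have := sz_pos t
  have h1 : Run w σ mvAB (st (t.enc ++ d) [] [] []) i (st d t.enc.reverse t.enc.reverse []) i :=
    run_mv id id (fun _ _ _ _ h => Run.seq (push1 h) (push2 h)) t (by omega) d
  refine Run.seq h1 (Run.seq (run_flushA _ _ _ (by simp [Tr.sz] at *; omega)) ?_)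
  simpa using run_flushB (w := w) (i := i) t.enc.reverse (t.enc ++ d) []
    (by simp [Tr.sz] at *; omega)

theorem run_swap (t u : Tr) (d : List Bool) (ht : d.length + t.sz + u.sz ≤ σ) :
    Run w σ swap (st (t.enc ++ (u.enc ++ d)) [] [] []) i
      (st (u.enc ++ (t.enc ++ d)) [] [] []) i := by
  have := sz_pos t
  have := sz_pos u
  refine Run.seq (run_mvA t (by omega) _ _) (Run.seq (run_mvB u (by omega) _ _)
    (Run.seq (run_flushA _ _ _ (by simp [Tr.sz] at *; omega)) ?_))
  simpa using run_flushB (w := w) (i := i) u.enc.reverse (t.enc ++ d) []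
    (by simp [Tr.sz] at *; omega)

def compile : Fn → Prog A
  | .nil => .seq drop (.push 0 false)
  | .id => .skip
  | .fst => .seq (.pop 0) (.seq mvA (.seq drop (flush 1)))
  | .snd => .seq (.pop 0) drop
  | .isCons => .cond 0 isT (.seq drop (.seq (.push 0 false) (.seq (.push 0 false) (.push 0 true))))
      (.seq drop (.push 0 false))
  | .pair f g => .seq dup (.seq (compile g) (.seq swap (.seq (compile f) (.push 0 true))))
  | .comp f g => .seq (compile g) (compile f)
  | .ite f g => .seq (.pop 0) (.cond 0 isT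
      (.seq (.pop 0) (.seq (.pop 0) (.seq (.pop 0) (compile f)))) (.seq (.pop 0) (compile g)))
  | .loop f => .seq (.pop 0) (.seq (.loop 0 isT
      (.seq (.push 0 true) (.seq (compile f) (.pop 0)))) (.push 0 true))

def dp : Fn → ℕ
  | .pair f g => dp f + dp g + 2
  | .comp f g => dp f + dp g
  | .ite f g => dp f + dp g
  | .loop f => dp f + 1
  | _ => 1

theorem Ev.run {β : ℕ} : ∀ {F : Fn} {x y : Tr}, Ev β F x y → ∀ d : List Bool,
    d.length + dp F * (β + 3) ≤ σ →
    Run w σ (compile F) (st (x.enc ++ d) [] [] []) i (st (y.enc ++ d) [] [] []) i := by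
  intro F
  induction F with
  | nil =>
    rintro x y ⟨rfl, h⟩ d hd
    simp only [dp] at hd
    exact Run.seq (run_drop x (by omega) _ _ _) (push0 (by omega))
  | id =>
    intro x y h d _
    rw [show y = x from h]
    exact Run.skip _ _
  | fst =>
    rintro x y ⟨⟨b, rfl⟩, h⟩ d hd
    simp only [dp] at hd
    rw [sz_cons] at h
    refine Run.seq pop0 (Run.seq (t := st (b.enc ++ d) y.enc.reverse [] []) (j := i) ?_
      (Run.seq (run_drop b (by omega) _ _ _) ?_))
    · simpa [Tr.enc] using run_mvA y (by omega) (b.enc ++ d) []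
    · simpa using run_flushA (w := w) (σ := σ) (i := i) y.enc.reverse d []
        (by simp [Tr.sz] at *; omega)
  | snd =>
    rintro x y ⟨⟨a, rfl⟩, h⟩ d hd
    simp only [dp] at hd
    rw [sz_cons] at h
    refine Run.seq pop0 ?_
    simpa [Tr.enc] using run_drop a (by omega) (y.enc ++ d) [] []
  | isCons =>
    rintro x y ⟨⟨rfl, rfl⟩ | ⟨⟨a, b, rfl⟩, rfl⟩, h⟩ d hd
    · simp only [dp] at hd
      exact Run.condF rfl (Run.seq (run_drop _ (by omega) _ _ _) (push0 (by omega)))
    · simp only [dp] at hd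
      exact Run.condT rfl (Run.seq (run_drop _ (by omega) _ _ _) (Run.seq (push0 (by omega))
        (Run.seq (push0 (by simp; omega)) (push0 (by simp; omega)))))
  | pair f g ihf ihg =>
    rintro x y ⟨a, b, h1, h2, rfl, h4, h5, h6⟩ d hd
    simp only [dp, add_mul] at hd
    refine Run.seq (run_dup x d (by omega)) (Run.seq (ihg h2 _ (by simp [Tr.sz] at *; omega))
      (Run.seq (run_swap b x d (by omega)) (Run.seq (ihf h1 _ (by simp [Tr.sz] at *; omega)) ?_)))
    simpa [Tr.enc] using push0 (w := w) (σ := σ) (i := i) (d := a.enc ++ (b.enc ++ d)) (x := true)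
      (a := []) (b := []) (c := []) (by simp [Tr.sz] at *; omega)
  | comp f g ihf ihg =>
    rintro x y ⟨z, h1, h2⟩ d hd
    simp only [dp, add_mul] at hd
    exact Run.seq (ihg h1 d (by omega)) (ihf h2 d (by omega))
  | ite f g ihf ihg =>
    rintro x y ⟨r, ⟨rfl, h1⟩ | ⟨rfl, h1⟩⟩ d hd
    · simp only [dp, add_mul] at hd
      refine Run.seq pop0 (Run.condT rfl (Run.seq pop0 (Run.seq pop0 (Run.seq pop0 ?_))))
      simpa [Tr.enc, tb] using ihf h1 d (by omega)
    · simp only [dp, add_mul] at hd
      refine Run.seq pop0 (Run.condF rfl (Run.seq pop0 ?_))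
      simpa [Tr.enc, tb] using ihg h1 d (by omega)
  | loop f ih =>
    rintro x y ⟨m, h1, hy, r, hr⟩ d hd
    simp only [dp, add_mul] at hd
    have key : ∀ m x, Iter (fun u v => u.sz ≤ β ∧ Ev β f u v) m x y → Lp w σ 0 isT
        (.seq (.push 0 true) (.seq (compile f) (.pop 0)))
        (st (x.enc ++ d).tail [] [] []) i (st (y.enc ++ d).tail [] [] []) i := by
      intro m
      induction m with
      | zero => intro x h; rw [show y = x from h]; exact Lp.refl
      | succ m ihm =>
        rintro x ⟨⟨r, rfl⟩, z, ⟨h0, h2⟩, h3⟩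
        refine (Lp.one rfl (Run.seq (push0 (by simp [Tr.sz, Tr.enc] at *; omega))
          (Run.seq (t := st (z.enc ++ d) [] [] []) (j := i) ?_ pop0))).trans (ihm z h3)
        simpa [Tr.enc] using ih h2 d (by omega)
    refine Run.seq pop0 (Run.seq ((key m x h1).run (by rw [hr]; rfl)) ?_)
    subst hr
    exact push0 (by simp [Tr.sz, Tr.enc] at *; omega)

end Vale.Agent.P312
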